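import Crest.Agent.N250.Wr.Sy3
import Crest.Agent.N228.O.Defs
import Crest.Agent.N222.F.Meas
import Crest.Agent.R241.AF3
import Crest.Agent.N250.Re.Pt
import Crest.Agent.N250.FV.Var
import Crest.Agent.N250.Wt.Defs

-- ▼ part N250/Wr/Wm
section

/-!
# Row 250 (helper67): the densities `ρ^α (1 + |x|²)^(-β)` and their logarithmic derivatives
-/

set_option autoImplicit false
open MeasureTheory Set Filter Topology
open scoped ContDiff InnerProductSpace
open Crest.GeometryTopology.MCF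

noncomputable section

namespace Crest.Agent.N250.Wr

variable {S : Mv} {e : Ends S} {j : Fin e.p} {a : ℝ} {p : ST}

/-- `1 + |x|²` -/
def tt (p : ST) : ℝ := 1 + ‖p.1‖ ^ 2

theorem one_le_tt (p : ST) : 1 ≤ tt p := le_add_of_nonneg_right (sq_nonneg _)

theorem tt_pos (p : ST) : 0 < tt p := one_pos.trans_le (one_le_tt p)

theorem contDiff_tt : ContDiff ℝ ∞ tt := contDiff_const.add ((contDiff_norm_sq ℝ).comp contDiff_fst)

theorem sm_tt : S.Sm tt := Mv.sm_of_contDiff contDiff_tt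

theorem rho_sq_le (a : ℝ) (p : ST) : rho e a p ^ 2 ≤ tt p := by
  rw [tt, ← rho0_sq]
  exact pow_le_pow_left₀ (rho_pos a p).le (rho_le_rho0 a p) 2

theorem xn_eq_sum (p : ST) : S.xn 0 p = ∑ c, p.1 c * S.nu c p := by
  rw [Mv.xn, sub_zero, inner_eq_sum]; rfl

theorem D_tt (hR : S.Reg) (hp : p ∈ S.M) (c : Fin 3) :
    S.D c tt p = 2 * (p.1 c - S.xn 0 p * S.nu c p) := by
  have h1 : HasFDerivAt tt _ p :=
    ((hasFDerivAt_fst (𝕜 := ℝ) (p := p)).norm_sq).const_add 1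
  rw [hR.D_amb hp h1.differentiableAt, h1.fderiv]
  simp [Mv.PL, Mv.xn, Mv.nu, inner_sub_right, inner_smul_right, EuclideanSpace.inner_single_right]
  ring

/-- `|x^T|²` -/
def qq (S : Mv) (p : ST) : ℝ := ‖p.1‖ ^ 2 - S.xn 0 p ^ 2

theorem dr_tt (hR : S.Reg) (hp : p ∈ S.M) : ∑ c, p.1 c * S.D c tt p = 2 * qq S p := by
  simp only [D_tt hR hp, qq, norm_sq_eq, xn_eq_sum, Fin.sum_univ_three]
  ring

theorem gam_tt (hR : S.Reg) (hp : p ∈ S.M) : ∑ c, S.D c tt p * S.D c tt p = 4 * qq S p := by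
  have h := hR.nn hp
  have h2 := xn_eq_sum (S := S) p
  simp only [D_tt hR hp, qq, norm_sq_eq, Fin.sum_univ_three] at h h2 ⊢
  linear_combination 4 * S.xn 0 p ^ 2 * h + 8 * S.xn 0 p * h2


theorem qq_le (p : ST) : qq S p ≤ ‖p.1‖ ^ 2 := sub_le_self _ (sq_nonneg _)

theorem abs_D_tt (hR : S.Reg) (hp : p ∈ S.M) (c : Fin 3) : |S.D c tt p| ≤ 2 * ‖p.1‖ := by
  have h1 := gam_tt hR hp
  have h2 : S.D c tt p * S.D c tt p ≤ ∑ c, S.D c tt p * S.D c tt p :=
    Finset.single_le_sum (f := fun c => S.D c tt p * S.D c tt p) (fun c _ => mul_self_nonneg _)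
      (Finset.mem_univ c)
  exact abs_le_of_sq_le_sq' (by nlinarith [qq_le (S := S) p]) (by positivity) |> abs_le.2

theorem D_rho_off (hR : S.Reg) (hp : p ∈ S.M) (ho : ∀ j, p ∈ Off e j a) (c : Fin 3) :
    S.D c (rho e a) p = S.D c tt p / (2 * rho e a p) := by
  have e1 : rho e a =ᶠ[𝓝[S.M] p] fun q => √(tt q) :=
    EqN.of_open (U := {p}) (isOpen_allOff a) (fun _ _ h => h ▸ ho) (fun q _ h => rho_off h) p hp rfl
  rw [Mv.D_congr hp e1, hR.D_comp hp sm_tt (Real.hasDerivAt_sqrt (tt_pos p).ne'), rho_off ho]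
  change _ = _ / (2 * √(tt p))
  ring

theorem D_rho_tube (hR : S.Reg) (hp : p ∈ S.M) (ht : p ∈ tube e j (a + 1)) (c : Fin 3) :
    S.D c (rho e a) p = 0 := by
  have e1 : rho e a =ᶠ[𝓝[S.M] p] fun _ => 1 :=
    EqN.of_open (U := {p}) (isOpen_tube j (a + 1)) (fun _ _ h => h ▸ ht) (fun q _ h => rho_tube h)
      p hp rfl
  rw [Mv.D_congr hp e1, hR.D_const hp]

variable (e) in
/-- `ρ^α (1 + |x|²)^(-β)` -/
def wt (a α β : ℝ) (p : ST) : ℝ := Real.exp (α * Real.log (rho e a p) - β * Real.log (tt p))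

theorem wt_pos (a α β : ℝ) (p : ST) : 0 < wt e a α β p := Real.exp_pos _

theorem contDiff_lw (a α β : ℝ) :
    ContDiff ℝ ∞ fun p => α * Real.log (rho e a p) - β * Real.log (tt p) :=
  (contDiff_const.mul ((contDiff_rho a).log fun p => (rho_pos a p).ne')).sub
    (contDiff_const.mul (contDiff_tt.log fun p => (tt_pos p).ne'))

theorem contDiff_wt (a α β : ℝ) : ContDiff ℝ ∞ (wt e a α β) := (contDiff_lw a α β).exp

theorem sm_wt (a α β : ℝ) : S.Sm (wt e a α β) := Mv.sm_of_contDiff (contDiff_wt a α β)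

theorem wt_eq (a : ℝ) (k : ℤ) (b : ℕ) (p : ST) :
    wt e a k b p = rho e a p ^ k / tt p ^ b := by
  rw [wt, Real.exp_sub, ← Real.log_zpow, ← Real.log_pow, Real.exp_log (zpow_pos (rho_pos a p) k),
    Real.exp_log (pow_pos (tt_pos p) b)]

theorem iota_sq_wt (a α β : ℝ) (p : ST) :
    (rho e a p)⁻¹ ^ 2 * wt e a α β p = wt e a (α - 2) β p := by
  have h := rho_pos (e := e) a p
  have : (rho e a p)⁻¹ ^ 2 = Real.exp (-(2 * Real.log (rho e a p))) := by
    rw [Real.exp_neg, show 2 * Real.log (rho e a p) = Real.log (rho e a p ^ 2) by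
      rw [Real.log_pow]; norm_num, Real.exp_log (by positivity), inv_pow]
  rw [this, wt, wt, ← Real.exp_add]
  congr 1
  ring

theorem D_wt (hR : S.Reg) (hp : p ∈ S.M) (a α β : ℝ) (c : Fin 3) :
    S.D c (wt e a α β) p = wt e a α β p *
      (α * (S.D c (rho e a) p / rho e a p) - β * (S.D c tt p / tt p)) := by
  have s1 : S.Sm fun p => Real.log (rho e a p) :=
    Mv.sm_of_contDiff ((contDiff_rho a).log fun p => (rho_pos a p).ne')
  have s2 : S.Sm fun p => Real.log (tt p) :=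
    Mv.sm_of_contDiff (contDiff_tt.log fun p => (tt_pos p).ne')
  have h1 := hR.D_comp hp (Mv.sm_of_contDiff (contDiff_lw (e := e) a α β))
    (Real.hasDerivAt_exp _) c
  have h2 := hR.D_sub hp (f := fun p => α * Real.log (rho e a p))
    (g := fun p => β * Real.log (tt p)) ((Mv.sm_const α).mul s1) ((Mv.sm_const β).mul s2) c
  rw [hR.D_const_mul hp α s1, hR.D_const_mul hp β s2,
    hR.D_comp hp (sm_rho a) (Real.hasDerivAt_log (rho_pos a p).ne'),
    hR.D_comp hp sm_tt (Real.hasDerivAt_log (tt_pos p).ne')] at h2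
  refine h1.trans ?_
  rw [show (fun p => α * Real.log (rho e a p) - β * Real.log (tt p)) =
    (fun p => α * Real.log (rho e a p)) - fun p => β * Real.log (tt p) from rfl, h2, wt]
  ring

section Shr
variable (hS : S.IsShr) (ha : e.R < a)
include hS ha

theorem xn_sq_le : ∃ C : ℝ, 0 ≤ C ∧ ∀ p ∈ S.M, S.xn 0 p ^ 2 ≤ C := by
  obtain ⟨C, h0, h⟩ := ((sym_xn hS ha).le (fun p _ _ => one_le_rho a p) (n := 0) (by norm_num)).bd
  refine ⟨C ^ 2, by positivity, fun p hp => ?_⟩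
  have := h p hp trivial
  rw [zpow_zero, mul_one] at this
  exact sq_le_sq' (abs_le.1 this).1 (abs_le.1 this).2

theorem A2_le : ∃ C : ℝ, 0 ≤ C ∧ ∀ p ∈ S.M, S.A2 p ≤ C / rho e a p ^ 2 := by
  obtain ⟨C, h0, h⟩ := (sym_A2 hS.reg pos_rho (sym_nu hS.reg hS.st ha)).bd
  refine ⟨C, h0, fun p hp => (le_abs_self _).trans ((h p hp trivial).trans_eq ?_)⟩
  rw [zpow_neg, div_eq_mul_inv]; rfl

theorem D_rho_le : ∃ C : ℝ, 0 ≤ C ∧ ∀ p ∈ S.M, ∀ c, |S.D c (rho e a) p| ≤ C := by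
  choose C h0 h using fun c => ((sym_rho1 hS.reg hS.st ha).D hS.reg c).bd
  refine ⟨∑ c, C c, Finset.sum_nonneg fun c _ => h0 c, fun p hp c => ?_⟩
  have := h c p hp trivial
  rw [sub_self, zpow_zero, mul_one] at this
  exact this.trans (Finset.single_le_sum (fun c _ => h0 c) (Finset.mem_univ c))

theorem dr_rho : ∃ C : ℝ, 0 ≤ C ∧ ∀ p ∈ S.M,
    |∑ c, p.1 c * S.D c (rho e a) p - rho e a p| ≤ C * (rho e a p)⁻¹ := by
  obtain ⟨C₁, h₁, H₁⟩ := xn_sq_le hS ha
  obtain ⟨C₂, h₂, H₂⟩ := D_rho_le hS ha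
  have hR3 := R_pos e
  set r := 2 * (a + 1) with hr
  have r0 : 0 < r := by linarith
  set K := (3 * (r * C₂) + (1 + r)) * (1 + r)
  have K0 : 0 ≤ K := by positivity
  refine ⟨K + (1 + C₁), by positivity, fun p hp => ?_⟩
  have hρ := rho_pos (e := e) a p
  have hι := inv_pos.2 hρ
  rcases three hS.st (b := a + 1) (c := r) (by linarith) le_rfl hp with h | h | ⟨j, h⟩
  · have h0 : ‖p.1‖ ≤ r := h
    have h1 : rho e a p ≤ 1 + r := by linarith [rho_le_rho0 (e := e) a p, rho0_le p]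
    have h2 : ∀ c, |p.1 c * S.D c (rho e a) p| ≤ r * C₂ := fun c => by
      rw [abs_mul]
      exact mul_le_mul ((abs_co_le _ c).trans h0) (H₂ p hp c) (abs_nonneg _) r0.le
    have h3 : |∑ c, p.1 c * S.D c (rho e a) p - rho e a p| ≤ 3 * (r * C₂) + (1 + r) := by
      rw [Fin.sum_univ_three, abs_le]
      constructor <;> linarith [abs_le.1 (h2 0), abs_le.1 (h2 1), abs_le.1 (h2 2)]
    have h4 : 1 ≤ (1 + r) * (rho e a p)⁻¹ := by rwa [← div_eq_mul_inv, one_le_div hρ]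
    calc _ ≤ (3 * (r * C₂) + (1 + r)) * 1 := by linarith
      _ ≤ (3 * (r * C₂) + (1 + r)) * ((1 + r) * (rho e a p)⁻¹) := by gcongr
      _ = K * (rho e a p)⁻¹ := by ring
      _ ≤ _ := by gcongr; linarith
  · have ho := con_off ha h.2
    have h1 : ∑ c, p.1 c * S.D c (rho e a) p - rho e a p =
        -((1 + S.xn 0 p ^ 2) * (rho e a p)⁻¹) := by
      have h2 : rho e a p ^ 2 = 1 + ‖p.1‖ ^ 2 := by rw [rho_off ho, rho0_sq]
      simp only [D_rho_off hS.reg hp ho, ← mul_div_assoc, ← Finset.sum_div, dr_tt hS.reg hp, qq]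
      field_simp
      linarith
    rw [h1, abs_neg, abs_of_nonneg (by positivity)]
    exact mul_le_mul_of_nonneg_right (by linarith [H₁ p hp]) hι.le
  · simp only [D_rho_tube hS.reg hp h, rho_tube h, mul_zero, Finset.sum_const_zero, zero_sub,
      abs_neg, abs_one, inv_one, mul_one]
    linarith

theorem D_wt_le (α β : ℝ) : ∃ C : ℝ, ∀ c, ∀ p ∈ S.M,
    |S.D c (wt e a α β) p| ≤ C * (rho e a p)⁻¹ * wt e a α β p := by
  obtain ⟨C, h0, H⟩ := D_rho_le hS ha
  refine ⟨|α| * C + |β| * 2, fun c p hp => ?_⟩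
  have hρ := rho_pos (e := e) a p
  have ht := tt_pos p
  rw [D_wt hS.reg hp, abs_mul, abs_of_pos (wt_pos _ _ _ _), mul_comm]
  refine mul_le_mul_of_nonneg_right ((abs_sub _ _).trans ?_) (wt_pos _ _ _ _).le
  rw [abs_mul, abs_mul, abs_div, abs_div, abs_of_pos hρ, abs_of_pos ht, add_mul, mul_assoc,
    mul_assoc]
  gcongr
  · rw [div_eq_mul_inv]
    gcongr
    exact H p hp c
  · rw [← div_eq_mul_inv, div_le_div_iff₀ ht hρ]
    have h1 := abs_D_tt hS.reg hp c
    have h2 : ‖p.1‖ * rho e a p ≤ tt p := by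
      rw [tt, ← rho0_sq, sq]
      exact mul_le_mul (norm_le_rho0 p) (rho_le_rho0 a p) hρ.le (rho0_pos p).le
    nlinarith

theorem dr_wt_le {β : ℝ} (hβ : 2 ≤ β) : ∃ C : ℝ, ∀ p ∈ S.M,
    ∑ c, p.1 c * S.D c (wt e a (2 * β - 4) β) p ≤
      (-4 + C * (rho e a p)⁻¹ ^ 2) * wt e a (2 * β - 4) β p := by
  obtain ⟨C₁, h₁, H₁⟩ := xn_sq_le hS ha
  obtain ⟨C₂, h₂, H₂⟩ := dr_rho hS ha
  refine ⟨(2 * β - 4) * C₂ + 2 * β * (1 + C₁), fun p hp => ?_⟩
  have hρ := rho_pos (e := e) a p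
  have ht := tt_pos p
  have h1 : ∑ c, p.1 c * S.D c (wt e a (2 * β - 4) β) p =
      ((2 * β - 4) * ((∑ c, p.1 c * S.D c (rho e a) p) / rho e a p) - β * (2 * qq S p / tt p)) *
        wt e a (2 * β - 4) β p := by
    simp only [D_wt hS.reg hp, ← dr_tt hS.reg hp, Fin.sum_univ_three]
    ring
  rw [h1]
  refine mul_le_mul_of_nonneg_right ?_ (wt_pos _ _ _ _).le
  have h2 : (∑ c, p.1 c * S.D c (rho e a) p) / rho e a p ≤ 1 + C₂ * (rho e a p)⁻¹ ^ 2 := by
    rw [div_le_iff₀ hρ]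
    have := (abs_le.1 (H₂ p hp)).2
    have e : (1 + C₂ * (rho e a p)⁻¹ ^ 2) * rho e a p = rho e a p + C₂ * (rho e a p)⁻¹ := by
      field_simp
    linarith
  have h3 : 2 - 2 * (1 + C₁) * (rho e a p)⁻¹ ^ 2 ≤ 2 * qq S p / tt p := by
    have e1 : 2 * qq S p / tt p = 2 - 2 * (1 + S.xn 0 p ^ 2) * (tt p)⁻¹ := by
      rw [qq]
      field_simp
      rw [tt]
      ring
    have e2 : (tt p)⁻¹ ≤ (rho e a p)⁻¹ ^ 2 := by
      rw [inv_pow]
      exact inv_anti₀ (by positivity) (rho_sq_le a p)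
    have : 2 * (1 + S.xn 0 p ^ 2) * (tt p)⁻¹ ≤ 2 * (1 + C₁) * (rho e a p)⁻¹ ^ 2 := by
      gcongr
      exact H₁ p hp
    linarith
  nlinarith [mul_le_mul_of_nonneg_left h2 (by linarith : 0 ≤ 2 * β - 4),
    mul_le_mul_of_nonneg_left h3 (by linarith : 0 ≤ β)]

omit ha in
theorem far_pt (hp : p ∈ S.M) {w γ A C : ℝ} {g : Fin 3 → ℝ}
    (hg : ∀ c, g c = w * (-γ * (S.D c tt p / tt p))) (hγ : 0 ≤ γ) (hC : S.xn 0 p ^ 2 ≤ C)
    (hA : 1 + A - γ / 2 ≤ -1 / 4) (ht : 8 * (γ / 2 * (1 + C) + 8 * γ ^ 2) ≤ tt p) :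
    (1 + A) * w ^ 2 + (∑ c, p.1 c * g c) * w / 4 + 2 * ∑ c, g c * g c ≤ -w ^ 2 / 8 := by
  have t0 := tt_pos p
  have h1 : ∑ c, p.1 c * g c = w * (-γ * (2 * qq S p / tt p)) := by
    simp only [hg, ← dr_tt hS.reg hp, Fin.sum_univ_three]; ring
  have h2 : ∑ c, g c * g c = w ^ 2 * (γ ^ 2 * (4 * qq S p / tt p ^ 2)) := by
    simp only [hg, ← gam_tt hS.reg hp, Fin.sum_univ_three]; ring
  have h3 : qq S p / tt p = 1 - (1 + S.xn 0 p ^ 2) / tt p := by
    rw [qq]
    field_simp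
    rw [tt]
    ring
  have h4 : qq S p / tt p ^ 2 ≤ 1 / tt p := by
    rw [div_le_div_iff₀ (by positivity) t0]
    have : qq S p ≤ tt p := by linarith [qq_le (S := S) p, show tt p = 1 + ‖p.1‖ ^ 2 from rfl]
    nlinarith
  have h5 : (1 + S.xn 0 p ^ 2) / tt p ≤ (1 + C) / tt p := by gcongr
  have h6 : (γ / 2 * (1 + C) + 8 * γ ^ 2) / tt p ≤ 1 / 8 := by
    rw [div_le_iff₀ t0]; linarith
  have h7 : 1 + A - γ / 2 * (qq S p / tt p) + 8 * γ ^ 2 * (qq S p / tt p ^ 2) ≤ -1 / 8 := by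
    rw [h3]
    have e : (γ / 2 * (1 + C) + 8 * γ ^ 2) / tt p =
        γ / 2 * ((1 + C) / tt p) + 8 * γ ^ 2 * (1 / tt p) := by ring
    nlinarith [mul_le_mul_of_nonneg_left h5 (by linarith : 0 ≤ γ / 2),
      mul_le_mul_of_nonneg_left h4 (by positivity : 0 ≤ 8 * γ ^ 2)]
  rw [h1, h2]
  calc _ = w ^ 2 * (1 + A - γ / 2 * (qq S p / tt p) + 8 * γ ^ 2 * (qq S p / tt p ^ 2)) := by ring
    _ ≤ w ^ 2 * (-1 / 8) := by gcongr
    _ = _ := by ring

theorem far_wt {β : ℝ} (hβ : ∀ p ∈ S.M, 2 * S.A2 p + 4 ≤ β) : ∃ R₁ : ℝ, ∀ p ∈ S.M,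
    R₁ ≤ ‖p.1‖ ^ 2 → (1 + S.A2 p) * wt e a (2 * β - 6) β p ^ 2
      + (∑ c, p.1 c * S.D c (wt e a (2 * β - 6) β) p) * wt e a (2 * β - 6) β p / 4
      + 2 * ∑ c, S.D c (wt e a (2 * β - 6) β) p * S.D c (wt e a (2 * β - 6) β) p
        ≤ -wt e a (2 * β - 6) β p ^ 2 / 8 := by
  obtain ⟨C₁, h₁, H₁⟩ := xn_sq_le hS ha
  obtain ⟨C₂, h₂, H₂⟩ := A2_le hS ha
  have hR3 := R_pos e
  refine ⟨(2 * (a + 1)) ^ 2 + 1 + 4 * C₂ + 8 * (3 / 2 * (1 + C₁) + 8 * 3 ^ 2)
    + 8 * (|β| / 2 * (1 + C₁) + 8 * β ^ 2), fun p hp hR => ?_⟩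
  have hb : 0 ≤ β := by linarith [hβ p hp, Mv.A2_nonneg (F := S) p]
  rw [abs_of_nonneg hb] at hR
  have k1 : 0 ≤ 8 * (β / 2 * (1 + C₁) + 8 * β ^ 2) := by positivity
  have k2 : 0 ≤ 8 * (3 / 2 * (1 + C₁) + 8 * 3 ^ 2) := by positivity
  have k3 : 0 ≤ (2 * (a + 1)) ^ 2 := sq_nonneg _
  have ht : tt p = 1 + ‖p.1‖ ^ 2 := rfl
  have hρ := rho_pos (e := e) a p
  rcases three hS.st (b := a + 1) (c := 2 * (a + 1)) (by linarith) le_rfl hp with h | h | ⟨j, h⟩
  · have h0 : ‖p.1‖ ≤ 2 * (a + 1) := h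
    have := pow_le_pow_left₀ (norm_nonneg _) h0 2
    linarith
  · have ho := con_off ha h.2
    have h2 : rho e a p ^ 2 = tt p := by rw [rho_off ho, rho0_sq, ht]
    refine far_pt hS hp (γ := 3) (fun c => ?_) (by norm_num) (H₁ p hp) ?_ (by linarith)
    · rw [D_wt hS.reg hp, D_rho_off hS.reg hp ho, ← h2]
      field_simp
      ring
    · have h3 := H₂ p hp
      rw [h2] at h3
      have : C₂ / tt p ≤ 1 / 4 := by
        rw [div_le_iff₀ (tt_pos p)]
        linarith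
      linarith
  · refine far_pt hS hp (γ := β) (fun c => ?_) hb (H₁ p hp) (by linarith [hβ p hp]) (by linarith)
    rw [D_wt hS.reg hp, D_rho_tube hS.reg hp h]
    ring

end Shr

/-- `(1 + |x|²)⁻²` is integrable -/
theorem intg_tt {μ : Measure E} {Λ : ℝ}
    (h : ∀ r, 0 < r → μ (Metric.ball 0 r) ≤ ENNReal.ofReal (Λ * r ^ 2)) :
    Integrable (fun x : E => ((1 + ‖x‖ ^ 2) ^ 2)⁻¹) μ := by
  have hc : Continuous fun x : E => ((1 + ‖x‖ ^ 2) ^ 2)⁻¹ :=
    Continuous.inv₀ (by fun_prop) fun x => by positivity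
  refine ⟨hc.aestronglyMeasurable, ?_⟩
  rw [hasFiniteIntegral_iff_ofReal (Eventually.of_forall fun x => by positivity)]
  have hs : Summable fun k : ℕ => 16 * |Λ| * (1 / 4 : ℝ) ^ k :=
    (summable_geometric_of_lt_one (by norm_num) (by norm_num)).mul_left _
  calc _ ≤ ∫⁻ x, ∑' k : ℕ, (Metric.ball (0 : E) (2 ^ (k + 1))).indicator
          (fun _ => ENNReal.ofReal (4 * (1 / 16 : ℝ) ^ k)) x ∂μ := by
        refine lintegral_mono fun x => ?_
        obtain ⟨k, h1, h2⟩ := exists_nat_pow_near (x := 1 + ‖x‖) (y := 2)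
          (by linarith [norm_nonneg x]) one_lt_two
        refine le_trans ?_ (ENNReal.le_tsum k)
        rw [indicator_of_mem (by rw [mem_ball_zero_iff]; linarith)]
        apply ENNReal.ofReal_le_ofReal
        have h3 : (2 : ℝ) ^ k * 2 ^ k ≤ 2 * (1 + ‖x‖ ^ 2) := by
          have := mul_le_mul h1 h1 (by positivity) (by positivity)
          nlinarith [sq_nonneg (‖x‖ - 1)]
        have h4 : (16 : ℝ) ^ k = (2 ^ k * 2 ^ k) ^ 2 := by
          rw [← mul_pow, ← pow_mul, mul_comm k 2, pow_mul]; norm_num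
        rw [one_div, inv_pow, ← div_eq_mul_inv, ← one_div, div_le_div_iff₀ (by positivity)
          (by positivity), h4]
        nlinarith [pow_le_pow_left₀ (by positivity) h3 2]
    _ = ∑' k : ℕ, ENNReal.ofReal (4 * (1 / 16 : ℝ) ^ k) * μ (Metric.ball 0 (2 ^ (k + 1))) := by
        rw [lintegral_tsum fun k =>
          (measurable_const.indicator Metric.isOpen_ball.measurableSet).aemeasurable]
        congr 1
        funext k
        rw [lintegral_indicator_const Metric.isOpen_ball.measurableSet]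
    _ ≤ ∑' k : ℕ, ENNReal.ofReal (16 * |Λ| * (1 / 4 : ℝ) ^ k) := by
        refine ENNReal.tsum_le_tsum fun k => ?_
        refine le_trans (mul_le_mul_right (h _ (by positivity)) _) ?_
        rw [← ENNReal.ofReal_mul (by positivity)]
        apply ENNReal.ofReal_le_ofReal
        have e : (1 / 16 : ℝ) ^ k * (2 ^ k) ^ 2 = (1 / 4) ^ k := by
          rw [← pow_mul, mul_comm k 2, pow_mul, ← mul_pow]; norm_num
        calc _ ≤ 4 * (1 / 16 : ℝ) ^ k * (|Λ| * (2 ^ (k + 1)) ^ 2) := by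
              gcongr; exact le_abs_self Λ
          _ = 16 * |Λ| * ((1 / 16 : ℝ) ^ k * (2 ^ k) ^ 2) := by ring
          _ = _ := by rw [e]
    _ < ⊤ := by
        rw [← ENNReal.ofReal_tsum_of_nonneg (fun k => by positivity) hs]
        exact ENNReal.ofReal_lt_top

end Crest.Agent.N250.Wr

end
end

-- ▼ part N228/O/Area
section

/-!
# Row 228, the bridge: the area measure of an embedded manifold is the Hausdorff measure
-/

set_option autoImplicit false
open MeasureTheory Set Filter Topology Function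

namespace Crest.Agent.N228
open Crest.Agent.N222

namespace Ar

variable {n N : ℕ} {X : Type} [TopologicalSpace X] [T2Space X] [SecondCountableTopology X]
  [MeasurableSpace X] [BorelSpace X] (M : Imm n (Fin N) X)

theorem memb (h : IsEmbedding M.x) : MeasurableEmbedding M.x := by
  have := M.locallyCompact
  obtain ⟨K, hK, hU⟩ := isSigmaCompact_range M.continuous_x
  exact h.measurableEmbedding (hU ▸ MeasurableSet.iUnion fun k => (hK k).measurableSet)

theorem comap_eq (h : IsEmbedding M.x) :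
    Measure.comap M.x (Measure.euclideanHausdorffMeasure n) = M.mu := by
  refine Imm.eq_mu fun p => ⟨M.ch p, M.isChart p, M.mem p, ?_⟩
  have he := M.isChart p
  generalize M.ch p = e at he
  ext s hs
  have e1 : M.x '' (s ∩ e.source) = (M.x ∘ e.symm) '' (e.target ∩ e.symm ⁻¹' s) := by
    rw [image_comp]
    congr 1
    ext q
    constructor
    · rintro ⟨h1, h2⟩
      exact ⟨e q, ⟨e.map_source h2, by rwa [mem_preimage, e.left_inv h2]⟩, e.left_inv h2⟩
    · rintro ⟨z, ⟨h1, h2⟩, rfl⟩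
      exact ⟨h2, e.map_target h1⟩
  rw [Measure.restrict_apply hs, (memb M h).comap_apply, Ms0.cm_apply he hs, e1,
    R241.AF.muHE_image_Euc e.open_target inter_subset_left (Ms0.meas_pre e hs)
      (he.sm.differentiableOn (by simp))
      (fun z hz z' hz' hzz => e.symm.injOn hz.1 hz'.1 (h.injective hzz))]
  simp only [jac_eq_normDet, R241.AF.jac]

end Ar


end Crest.Agent.N228
end

-- ▼ part N250/Re/Slice
section

/-!
# Row 250, realisation, part 5 (helper86): time slices as `N222.Imm 2 (Fin 3)`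
-/

set_option autoImplicit false
open MeasureTheory Set Filter Topology Function
open scoped ContDiff InnerProductSpace
open Crest.GeometryTopology.MCF

noncomputable section

namespace Crest.Agent.N250

open FV

namespace Mv

variable (F : Mv)

/-- restriction to a slice -/
def rs {G : Type} (t : ℝ) (f : ST → G) : F.sl t → G := fun x => f (x, t)

/-- a function on a slice as a time independent ambient function -/
def lift (t : ℝ) (u : F.sl t → ℝ) (p : ST) : ℝ := by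
  classical exact if h : p.1 ∈ F.sl t then u ⟨p.1, h⟩ else 0

variable {F}

theorem rs_apply {G : Type} (t : ℝ) (f : ST → G) (x : F.sl t) : F.rs t f x = f (x, t) := rfl

theorem lift_apply {t : ℝ} (u : F.sl t → ℝ) {p : ST} (hp : p.1 ∈ F.sl t) :
    F.lift t u p = u ⟨p.1, hp⟩ := dif_pos hp



section Chart

variable {X : E2 × ℝ → E} {U : Set (E2 × ℝ)} {W : Set ST} {L : E →L[ℝ] E2} {t : ℝ}

open Classical in
/-- the slice chart of a graph chart -/
def slChart (h : Ch F X U W L) (x₀ : F.sl t) : OpenPartialHomeomorph (F.sl t) E2 where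
  toFun x := L x
  invFun z := if hz : (z, t) ∈ U then ⟨X (z, t), h.mem _ hz⟩ else x₀
  source := {x | ((x : E), t) ∈ W}
  target := {z | (z, t) ∈ U}
  map_source' x hx := h.inU (x, t) x.2 hx
  map_target' z hz := by
    have hz' : (z, t) ∈ U := hz
    simp only [mem_ofPred_eq, dif_pos hz']
    exact h.memW _ hz
  left_inv' x hx := by
    have hz' : (L x, t) ∈ U := h.inU (x, t) x.2 hx
    simp only [dif_pos hz']
    exact Subtype.ext (h.right (x, t) x.2 hx)
  right_inv' z hz := by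
    have hz' : (z, t) ∈ U := hz
    simp only [dif_pos hz']
    exact h.left _ hz
  open_source := (h.oWt t).preimage continuous_subtype_val
  open_target := h.oUt t
  continuousOn_toFun := (L.continuous.comp continuous_subtype_val).continuousOn
  continuousOn_invFun := by
    rw [IsInducing.subtypeVal.continuousOn_iff]
    refine ContinuousOn.congr (f := fun z => X (z, t)) (h.sm.continuousOn.comp
      (Continuous.prodMk_left t).continuousOn fun _ hz => hz) fun z hz => ?_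
    have hz' : (z, t) ∈ U := hz
    simp only [comp_apply, dif_pos hz']

theorem slChart_symm (h : Ch F X U W L) (x₀ : F.sl t) {z : E2} (hz : (z, t) ∈ U) :
    ((slChart h x₀).symm z : E) = X (z, t) := by
  classical
  change ((if hz : (z, t) ∈ U then ⟨X (z, t), h.mem _ hz⟩ else x₀ : F.sl t) : E) = _
  rw [dif_pos hz]

theorem slChart_ev {G : Type} (h : Ch F X U W L) (x₀ : F.sl t) (f : ST → G) {z : E2}
    (hz : (z, t) ∈ U) :
    F.rs t f ∘ (slChart h x₀).symm =ᶠ[𝓝 z] fun y => f (Ps X (y, t)) := by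
  filter_upwards [(h.oUt t).mem_nhds hz] with y hy
  rw [comp_apply, rs_apply, slChart_symm h x₀ hy]; rfl

theorem slChart_fd (h : Ch F X U W L) (x₀ : F.sl t) {z : E2} (hz : (z, t) ∈ U) :
    fderiv ℝ (Subtype.val ∘ (slChart h x₀).symm) z = Jz X (z, t) :=
  (slChart_ev h x₀ Prod.fst hz).fderiv_eq.trans
    (HasFDerivAt.comp z (f := fun y : E2 => (y, t)) (h.hasX hz)
      (hasFDerivAt_prodMk_left z t)).fderiv

theorem slChart_isChart (h : Ch F X U W L) (x₀ : F.sl t) :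
    N222.IsChart Subtype.val (slChart h x₀) :=
  ⟨(h.sm.comp (contDiff_prodMk_left t).contDiffOn fun _ hz => hz).congr
      fun _ hz => slChart_symm h x₀ hz,
    fun z hz => by rw [slChart_fd h x₀ hz]; exact h.inj hz⟩

end Chart

namespace Reg

variable (h : F.Reg) (t : ℝ)

include h in
theorem exists_slChart (x : F.sl t) : ∃ e : OpenPartialHomeomorph (F.sl t) E2, x ∈ e.source ∧
    N222.IsChart Subtype.val e := by
  obtain ⟨X, U, W, L, h1, h2⟩ := exists_ch h (p := (x, t)) x.2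
  exact ⟨slChart h2 x, h1, slChart_isChart h2 x⟩

/-- the slice as an immersed surface -/
def imm : N222.Imm 2 (Fin 3) (F.sl t) where
  x := Subtype.val
  ch x := (h.exists_slChart t x).choose
  mem x := (h.exists_slChart t x).choose_spec.1
  isChart x := (h.exists_slChart t x).choose_spec.2


section

variable {G : Type} [NormedAddCommGroup G] [NormedSpace ℝ G] {f : ST → G}

theorem imm_sm (hf : F.Sm f) : (h.imm t).Sm (F.rs t f) := fun x =>
  ContDiffOn.comp (g := f) (f := fun z => ((((h.imm t).ch x).symm z : E), t)) hf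
    (((h.imm t).isChart x).sm.prodMk contDiffOn_const) fun z _ => (((h.imm t).ch x).symm z).2


theorem imm_td (x : F.sl t) (hf : DifferentiableWithinAt ℝ f F.M (x, t)) (w : E) :
    (h.imm t).td (F.rs t f) x w = F.td f (x, t) (F.PL (x, t) w, 0) := by
  obtain ⟨X, U, W, L, h1, h2⟩ := exists_ch h (p := (x, t)) x.2
  have hz : (L x, t) ∈ U := h2.inU (x, t) x.2 h1
  have hP : Ps X (L x, t) = (x.1, t) := Prod.ext (h2.right (x, t) x.2 h1) rfl
  rw [N222.Imm.td_chart _ (slChart_isChart h2 x) h1]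
  change fderiv ℝ (F.rs t f ∘ (slChart h2 x).symm) (L x) (ContinuousLinearMap.adjoint
    (N222.Lam (fderiv ℝ (Subtype.val ∘ (slChart h2 x).symm) (L x))) w) = _
  rw [← hP] at hf ⊢
  rw [slChart_fd h2 x hz, (slChart_ev h2 x f hz).fderiv_eq, ← h2.Jz_La h hz]
  exact congrArg (fun T : E2 →L[ℝ] G => T _)
    (HasFDerivAt.comp (L x) (f := fun y : E2 => (y, t)) (h2.hasF hz hf)
      (hasFDerivAt_prodMk_left _ t)).fderiv

end


variable {f g : ST → ℝ}

theorem imm_D_at (x : F.sl t) (hf : DifferentiableWithinAt ℝ f F.M (x, t)) (a : Fin 3) :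
    (h.imm t).pre.D a (F.rs t f) x = F.D a f (x, t) := h.imm_td t x hf _

theorem imm_D (hf : F.Sm f) (a : Fin 3) : (h.imm t).pre.D a (F.rs t f) = F.rs t (F.D a f) :=
  funext fun x => h.imm_D_at t x (hf.diffW x.2) a















/-! ### the measure -/

include h in
theorem imm_memb : MeasurableEmbedding (Subtype.val : F.sl t → E) :=
  N228.Ar.memb (h.imm t) IsEmbedding.subtypeVal

theorem imm_mu_comap : (h.imm t).mu = Measure.comap Subtype.val (μHE[2] : Measure E) :=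
  (N228.Ar.comap_eq (h.imm t) IsEmbedding.subtypeVal).symm

theorem imm_mu : (h.imm t).mu.map Subtype.val = F.mu t := by
  rw [h.imm_mu_comap, (h.imm_memb t).map_comap, Subtype.range_coe]; rfl


theorem imm_integral {G : Type} [NormedAddCommGroup G] [NormedSpace ℝ G] (g : E → G) :
    ∫ x, g x ∂(h.imm t).mu = ∫ x, g x ∂F.mu t := by
  rw [← h.imm_mu, (h.imm_memb t).integral_map]


theorem imm_integrable {G : Type} [NormedAddCommGroup G] (g : E → G) :
    Integrable (fun x : F.sl t => g x) (h.imm t).mu ↔ Integrable g (F.mu t) := by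
  rw [← h.imm_mu, (h.imm_memb t).integrable_map_iff]; rfl




/-! ### static surfaces: smooth functions on the slice are smooth on the track -/

theorem sm_lift (hs : F.Static) {u : F.sl t → ℝ} (hu : (h.imm t).Sm u) : F.Sm (F.lift t u) := by
  intro p hp
  have m : ∀ q ∈ F.M, q.1 ∈ F.sl t := fun q hq => (hs.mem _ t).2 ((hs.mem q.1 q.2).1 hq)
  obtain ⟨X, U, W, L, h1, h2⟩ := exists_ch h (p := (p.1, t)) (m p hp)
  have hz : (L p.1, t) ∈ U := h2.inU (p.1, t) (m p hp) h1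
  have h3 : ContDiffAt ℝ ∞ (u ∘ (slChart h2 ⟨p.1, m p hp⟩).symm) (L p.1) :=
    (hu.chart (slChart_isChart h2 _)).contDiffAt ((h2.oUt t).mem_nhds hz)
  have h4 : ContDiffAt ℝ ∞ (fun q : ST => (u ∘ (slChart h2 ⟨p.1, m p hp⟩).symm) (L q.1)) p :=
    ContDiffAt.comp p (f := fun q : ST => L q.1) h3 (L.contDiff.comp contDiff_fst).contDiffAt
  refine h4.contDiffWithinAt.congr_of_eventuallyEq_of_mem ?_ hp
  filter_upwards [nhdsWithin_le_nhds (((h2.oWt t).preimage continuous_fst).mem_nhds h1),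
    self_mem_nhdsWithin] with q hq hM
  rw [lift_apply u (m q hM), comp_apply]
  exact congrArg u ((slChart h2 ⟨p.1, m p hp⟩).left_inv (x := ⟨q.1, m q hM⟩) hq).symm

end Reg

end Mv

end Crest.Agent.N250

end
end

-- ▼ part N250/Wr/Geo

/-!
# Row 250 (helper67): the `WS.Geo` of a shrinker with ends
-/

set_option autoImplicit false
open MeasureTheory Set Filter Topology
open scoped ContDiff InnerProductSpace
open Crest.GeometryTopology.MCF

noncomputable section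

namespace Crest.Agent.N250.Wr

open Crest.Agent.N222 (SmR)

variable {S : Mv} {f g : ST → ℝ}

section Dict
variable (hR : S.Reg)

/-- a smooth function on the track as a smooth function on the slice `0` -/
def mkR (f : ST → ℝ) (hf : S.Sm f) : SmR (hR.imm 0).ch := ⟨S.rs 0 f, hR.imm_sm 0 hf⟩

/-- the normal -/
def nS (c : Fin 3) : SmR (hR.imm 0).ch := mkR hR (S.nu c) (hR.sm_nu c)

/-- the calculus of the slice `0` -/
abbrev mv : Mov (SmR (hR.imm 0).ch) (Fin 3) := WS.mov (hR.imm 0) (nS hR)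

theorem mkR_apply (hf : S.Sm f) (p : S.sl 0) : (mkR hR f hf).1 p = f (p, 0) := rfl

theorem mkR_ext {u : SmR (hR.imm 0).ch} (hf : S.Sm f) (h : ∀ p : S.sl 0, u.1 p = f (p, 0)) :
    u = mkR hR f hf := Subtype.ext (funext h)




theorem mkR_mul (hf : S.Sm f) (hg : S.Sm g) :
    mkR hR f hf * mkR hR g hg = mkR hR (f * g) (hf.mul hg) := rfl

theorem val_sum {κ : Type} (s : Finset κ) (u : κ → SmR (hR.imm 0).ch) (p : S.sl 0) :
    (∑ i ∈ s, u i).1 p = ∑ i ∈ s, (u i).1 p := by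
  rw [AddSubmonoidClass.coe_finsetSum, Finset.sum_apply]

theorem mv_D (hf : S.Sm f) (a : Fin 3) :
    (mv hR).D a (mkR hR f hf) = mkR hR (S.D a f) (hR.sm_D hf a) := Subtype.ext (hR.imm_D 0 hf a)

theorem mv_x (a : Fin 3) : (mv hR).x a = mkR hR (S.pre.x a) (Mv.sm_x a) := rfl

theorem mv_n (a : Fin 3) : (mv hR).n a = mkR hR (S.nu a) (hR.sm_nu a) := rfl

theorem mv_Dw (hf : S.Sm f) (l : List (Fin 3)) :
    (mv hR).Dw l (mkR hR f hf) = mkR hR (S.DL l f) (hR.sm_DL hf l) := by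
  induction l with
  | nil => rfl
  | cons a l ih => rw [Mov.Dw, ih, mv_D]; rfl

theorem mv_P (a b : Fin 3) : (mv hR).P a b = mkR hR (S.P a b) (hR.sm_P a b) :=
  mv_D hR (Mv.sm_x b) a

theorem mv_B (a b : Fin 3) : (mv hR).B a b = mkR hR (S.A a b) (hR.sm_A a b) :=
  mv_D hR (hR.sm_nu b) a

theorem mv_h : (mv hR).h = mkR hR S.H hR.sm_H := mkR_ext hR _ fun p => by
  simp only [Mov.h, val_sum, mv_B, mkR_apply, Mv.H_apply]

theorem mv_a2 : (mv hR).a2 = mkR hR S.A2 hR.sm_A2 := mkR_ext hR _ fun p => by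
  simp only [Mov.a2, val_sum, mv_B, mkR_mul, mkR_apply, Mv.A2_apply, Pi.mul_apply]

theorem mv_xn : (mv hR).xn = mkR hR (S.xn 0) (hR.sm_xn 0) := mkR_ext hR _ fun p => by
  simp only [Mov.xn, val_sum, mv_x, mv_n, mkR_mul, mkR_apply, xn_eq_sum, Pi.mul_apply]
  rfl

theorem mv_x2 (p : S.sl 0) : (mv hR).x2.1 p = ‖(p : E)‖ ^ 2 := by
  simp only [Mov.x2, val_sum, mv_x, mkR_mul, mkR_apply, norm_sq_eq, Pi.mul_apply]
  rfl

theorem mv_dr (hf : S.Sm f) (p : S.sl 0) :
    ((mv hR).dr (mkR hR f hf)).1 p = ∑ c, (p : E) c * S.D c f (p, 0) := by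
  simp only [Mov.dr, val_sum, mv_x, mv_D, mkR_mul, mkR_apply, Pi.mul_apply]
  rfl

theorem mv_gam (hf : S.Sm f) (hg : S.Sm g) :
    (mv hR).gam (mkR hR f hf) (mkR hR g hg) = mkR hR (S.gam f g) (hR.sm_gam hf hg) :=
  mkR_ext hR _ fun p => by
    have : (mv hR).gam (mkR hR f hf) (mkR hR g hg) =
      ∑ a, (mv hR).D a (mkR hR f hf) * (mv hR).D a (mkR hR g hg) := rfl
    simp only [this, val_sum, mv_D, mkR_mul, mkR_apply, Mv.gam_apply, Pi.mul_apply]



theorem mv_hyp : (mv hR).IsHyp where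
  toIsDS := (hR.imm 0).isDS
  nn := Subtype.ext (funext fun p => by
    simp only [val_sum, mv_n, mkR_mul, mkR_apply, Pi.mul_apply]
    exact hR.nn p.2)
  Pn a b := Subtype.ext (funext fun p => by
    rw [mv_P, mkR_apply, hR.P_eq p.2]
    split_ifs <;> rfl)

/-- transport of symbols -/
theorem Sym.ws {ρ : ST → ℝ} (hρ : S.Sm ρ) {k : ℤ} (h : Sym S ρ univ k f) :
    WS.Sym (nS hR) (mkR hR ρ hρ) k (mkR hR f h.1) := fun l => by
  obtain ⟨C, -, hC⟩ := h.2 l
  exact ⟨C, fun p => by rw [mv_Dw]; exact hC (p, 0) p.2 trivial⟩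

end Dict

theorem compact_sl (hc : IsClosed S.M) (r : ℝ) : IsCompact {p : S.sl 0 | ‖(p : E)‖ ^ 2 ≤ r} := by
  have h1 : IsClosed (S.sl 0) := hc.preimage (Continuous.prodMk_left 0)
  refine (h1.isClosedEmbedding_subtypeVal.isCompact_preimage
    (isCompact_closedBall (0 : E) (1 + r))).of_isClosed_subset
    (isClosed_le (by fun_prop) continuous_const) fun p hp => ?_
  have hp : ‖(p : E)‖ ^ 2 ≤ r := hp
  simp only [mem_preimage, mem_closedBall_zero_iff]
  nlinarith [sq_nonneg (‖(p : E)‖ - 1), norm_nonneg (p : E)]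

/-- the parameters: `ρ = rho e a`, `ζ = zeta e a' b'`, `m = ρ^(2b-4) (1 + |x|²)^(-b)` -/
structure Prm (S : Mv) where
  e : Ends S
  Λ : ℝ
  a : ℝ
  a' : ℝ
  b' : ℝ
  b : ℕ
  shr : S.IsShr
  ar : S.AR Λ
  ha : e.R < a
  ha' : e.R < a'
  hab : a' < b'
  hb : ∀ p ∈ S.M, 2 * S.A2 p + 4 ≤ b
  two : 2 ≤ b

theorem exists_b (hS : S.IsShr) (e : Ends S) :
    ∃ b₀ : ℕ, 2 ≤ b₀ ∧ ∀ b, b₀ ≤ b → ∀ p ∈ S.M, 2 * S.A2 p + 4 ≤ b := by
  obtain ⟨C, h0, h⟩ := A2_le hS (e := e) (a := e.R + 1) (by linarith)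
  refine ⟨⌈2 * C + 4⌉₊ + 2, by omega, fun b hb p hp => ?_⟩
  have h1 : C / rho e (e.R + 1) p ^ 2 ≤ C :=
    div_le_self h0 (one_le_pow₀ (one_le_rho _ p))
  have h2 : ((⌈2 * C + 4⌉₊ + 2 : ℕ) : ℝ) ≤ b := Nat.cast_le.2 hb
  push_cast at h2
  linarith [h p hp, Nat.le_ceil (2 * C + 4)]

namespace Prm

variable (P : Prm S)

/-- the density -/
def mm : ST → ℝ := wt P.e P.a (2 * P.b - 4) P.b

theorem mm_eq (p : ST) : P.mm p = rho P.e P.a p ^ (2 * P.b - 4) / tt p ^ P.b := by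
  have h2 := P.two
  have := wt_eq (e := P.e) P.a ((2 * P.b - 4 : ℕ) : ℤ) P.b p
  rw [zpow_natCast, Int.cast_natCast, Nat.cast_sub (by omega)] at this
  push_cast at this
  exact this

theorem mm_ge (p : ST) : 1 ≤ P.mm p * tt p ^ P.b := by
  rw [mm_eq, div_mul_cancel₀ _ (pow_pos (tt_pos p) _).ne']
  exact one_le_pow₀ (one_le_rho _ p)


theorem mm_le (p : ST) : P.mm p ≤ (tt p ^ 2)⁻¹ := by
  obtain ⟨k, hk⟩ := Nat.exists_eq_add_of_le P.two
  have ht := tt_pos p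
  rw [mm_eq, hk, show 2 * (2 + k) - 4 = 2 * k by omega, pow_mul, pow_add, ← one_div,
    div_le_div_iff₀ (by positivity) (by positivity), one_mul, mul_comm]
  gcongr
  exact rho_sq_le _ p

theorem sm_iota : S.Sm fun p => (rho P.e P.a p)⁻¹ := (sym_iota P.shr.reg P.shr.st P.ha).1

theorem sm_zeta : S.Sm fun p => zeta P.e P.a' P.b' p.1 := sm_amb (contDiff_zeta _ _)

theorem zone : ∃ C : ℝ, 1 ≤ C ∧ ∀ p ∈ S.M, (∀ j, p ∉ tube P.e j P.b') →
    tt p ≤ C * rho P.e P.a p ^ 2 := by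
  refine ⟨1 + (2 * P.b') ^ 2, by nlinarith, fun p hp h => ?_⟩
  have h1 : 1 ≤ rho P.e P.a p ^ 2 := one_le_pow₀ (one_le_rho _ p)
  rcases three P.shr.st (b := P.b') (c := 2 * P.b') (by linarith [P.ha', P.hab]) le_rfl hp
    with h0 | h0 | ⟨j, h0⟩
  · have h2 : ‖p.1‖ ≤ 2 * P.b' := h0
    have := pow_le_pow_left₀ (norm_nonneg _) h2 2
    rw [tt]
    nlinarith
  · rw [rho_off (con_off P.ha h0.2), rho0_sq, tt]
    nlinarith [sq_nonneg (2 * P.b'), sq_nonneg ‖p.1‖]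
  · exact (h j h0).elim

theorem not_tube {p : S.sl 0} (hp : p ∈ tsupport (mkR P.shr.reg _ P.sm_zeta).1) (j : Fin P.e.p) :
    ((p : E), (0 : ℝ)) ∉ tube P.e j P.b' := fun h => by
  refine (notMem_tsupport_iff_eventuallyEq.2 ?_) hp
  have hc : Continuous fun q : S.sl 0 => ((q : E), (0 : ℝ)) := by fun_prop
  filter_upwards [hc.continuousAt.preimage_mem_nhds ((isOpen_tube j P.b').mem_nhds h)] with q hq
  exact zeta_zero P.hab hq

theorem iota_mm : mkR P.shr.reg _ P.sm_iota ^ 2 * mkR P.shr.reg P.mm (sm_wt _ _ _) =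
    mkR P.shr.reg (wt P.e P.a (2 * P.b - 6) P.b) (sm_wt _ _ _) := mkR_ext _ _ fun p => by
  rw [show (2 * P.b - 6 : ℝ) = 2 * P.b - 4 - 2 by ring, ← iota_sq_wt]
  rfl

/-- the weighted setting -/
def geo : WS.Geo (S.sl 0) where
  M := P.shr.reg.imm 0
  n := nS P.shr.reg
  ρ := mkR P.shr.reg (rho P.e P.a) (sm_rho _)
  ι := mkR P.shr.reg _ P.sm_iota
  m := mkR P.shr.reg P.mm (sm_wt _ _ _)
  ζ := mkR P.shr.reg _ P.sm_zeta
  hyp := mv_hyp _
  shr := by
    rw [mv_xn, mv_h]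
    refine Subtype.ext (funext fun p => ?_)
    have := P.shr.eq (p, 0) p.2
    rw [Mv.shr] at this
    change S.xn 0 (p, 0) = 2 * S.H (p, 0)
    linarith
  prop r := by simpa only [mv_x2] using compact_sl P.shr.closed r
  ρι := Subtype.ext (funext fun p => mul_inv_cancel₀ (rho_pos P.a (p, 0)).ne')
  one_le p := one_le_rho _ _
  ρ_le p := by rw [mv_x2]; exact rho_sq_le P.a (p, 0)
  symρ := (sym_rho1 P.shr.reg P.shr.st P.ha).ws _ _
  symι := (sym_iota P.shr.reg P.shr.st P.ha).ws _ _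
  symn a := (sym_nu P.shr.reg P.shr.st P.ha a).ws _ _
  drρ := by
    obtain ⟨C, -, h⟩ := dr_rho P.shr P.ha
    exact ⟨C, fun p => by rw [mv_dr]; exact h (p, 0) p.2⟩
  m_pos p := wt_pos _ _ _ _
  m_le p := (P.mm_le _).trans (inv_le_one_of_one_le₀ (one_le_pow₀ (one_le_tt _)))
  m_ge := ⟨1, P.b, one_pos, fun p => by rw [mv_x2]; exact P.mm_ge (p, 0)⟩
  m_int := by
    have h := (P.shr.reg.imm_integrable 0 _).2 (intg_tt (P.ar 0 0))
    refine h.mono' (N222.Imm.Sm.continuous (mkR P.shr.reg P.mm (sm_wt _ _ _)).2).aestronglyMeasurable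
      (.of_forall fun p => ?_)
    exact (Real.norm_of_nonneg (wt_pos _ _ _ _).le).trans_le (P.mm_le (p, 0))
  Dm := by
    obtain ⟨C, h⟩ := D_wt_le P.shr P.ha (2 * P.b - 4) P.b
    exact ⟨C, fun a p => by rw [mv_D]; exact h a (p, 0) p.2⟩
  drm := by
    obtain ⟨C, h⟩ := dr_wt_le P.shr P.ha (β := P.b) (by exact_mod_cast P.two)
    exact ⟨C, fun p => by rw [mv_dr]; exact h (p, 0) p.2⟩
  far := by
    obtain ⟨R₁, h⟩ := far_wt P.shr P.ha P.hb
    refine ⟨R₁, fun p hp => ?_⟩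
    rw [mv_x2] at hp
    rw [iota_mm, mv_dr, mv_gam, mv_a2]
    exact (le_of_eq (by simp only [mkR_apply, Mv.gam_apply])).trans (h (p, 0) p.2 hp)
  ζ_le p := abs_le.2 ⟨le_trans (by norm_num) (zeta_nonneg (e := P.e) P.a' P.b' p),
    zeta_le_one _ _ _⟩
  symDζ a := by
    rw [mv_D]
    exact (sym_D_zeta P.shr.reg P.shr.st P.ha P.ha' P.hab a (-3)).ws _ _
  zone := by
    obtain ⟨C, h1, h⟩ := P.zone
    refine ⟨C ^ P.b, fun p hp => ?_⟩
    have h2 := h (p, 0) p.2 (P.not_tube hp)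
    have h3 : C ≤ C ^ P.b := le_self_pow₀ h1 (by linarith [P.two])
    have hρ := rho_pos (e := P.e) P.a (p, 0)
    have ht := tt_pos ((p : E), (0 : ℝ))
    rw [mv_x2]
    refine ⟨h2.trans (mul_le_mul_of_nonneg_right h3 (sq_nonneg _)), ?_⟩
    obtain ⟨k, hk⟩ := Nat.exists_eq_add_of_le P.two
    have h4 := pow_le_pow_left₀ ht.le h2 P.b
    change (rho P.e P.a (p, 0))⁻¹ ^ 4 ≤ C ^ P.b * P.mm (p, 0)
    rw [mm_eq, ← mul_div_assoc, le_div_iff₀ (by positivity), inv_pow, inv_mul_le_iff₀ (by positivity)]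
    refine h4.trans_eq ?_
    rw [hk, show 2 * (2 + k) - 4 = 2 * k by omega]
    ring


theorem geo_S : P.geo.S = mv P.shr.reg := rfl

theorem geo_x (p : S.sl 0) : P.geo.M.x p = p := rfl

theorem geo_ρ (p : S.sl 0) : P.geo.ρ.1 p = rho P.e P.a (p, 0) := rfl

theorem geo_ι (p : S.sl 0) : P.geo.ι.1 p = (rho P.e P.a (p, 0))⁻¹ := rfl


theorem geo_ζ (p : S.sl 0) : P.geo.ζ.1 p = zeta P.e P.a' P.b' p := rfl


/-- symbols of the track are symbols of `geo` -/
theorem sy {k : ℤ} (h : Sym S (rho P.e P.a) univ k f) : P.geo.Sy k (mkR P.shr.reg f h.1) :=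
  h.ws _ (sm_rho _)

end Prm


end Crest.Agent.N250.Wr

end
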