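import Crest.Agent.N250.Wr.Geo
import Crest.Agent.N250.Po.Pol
import Crest.Agent.N250.Wt.Base

/-!
# Row 250 (helper67): the transversal field `Z`, `⟨Z, n⟩ = 1`, radial on the far tubes
-/

set_option autoImplicit false
open MeasureTheory Set Filter Topology
open scoped ContDiff InnerProductSpace
open Crest.GeometryTopology.MCF

noncomputable section

namespace Crest.Agent.N250.Wr

variable {S : Mv} {e : Ends S} {i j : Fin e.p} {a b c a' b' : ℝ} {p : ST} {f : ST → ℝ}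

variable (e) in
/-- `⟨n, w⟩`, `w` the radial vector -/
def nw (j : Fin e.p) (p : ST) : ℝ := ⟪S.n p, wv e j p.1⟫_ℝ

variable (e) in
/-- the transversal field: `n` off the tubes beyond `a`, `w / ⟨n, w⟩` on the tubes beyond `b` -/
def Zf (a b : ℝ) (p : ST) : E :=
  S.n p + ∑ j, chi e j a b p.1 • ((nw e j p)⁻¹ • wv e j p.1 - S.n p)

theorem wv_pX (j : Fin e.p) (r : ℝ × ℝ → ℝ) (q : ℝ × ℝ) :
    wv e j (Po.pX (e.Q j) r q) = Po.fr (e.Q j) q.2 0 (r q) 0 := by
  rw [wv, Po.pX, xi_Q, ax, ← map_smul, ← map_sub, Po.fr]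
  congr 1
  ext k
  fin_cases k <;> simp [cylP]



theorem exists_pX (hS : S.Static) (hp : p ∈ S.M) (ht : p ∈ tube e j e.R) :
    ∃ θ, p.1 = Po.pX (e.Q j) (e.r j) (xi e j p.1, θ) := exists_pol hS hp (tube_cone ht) ht.1

theorem nw_pX (hR : S.Reg) {q : ℝ × ℝ} (hq : e.R < q.1) :
    nw e j (Po.pX (e.Q j) (e.r j) q, 0) * √(Po.Qv (fun y => e.r j y ^ 2 / 2) q) =
      Po.sg S 0 (e.Q j) (e.r j) q * e.r j q ^ 2 := by
  rw [nw, wv_pX, (Po.ends_pol hR e j hq).inner_n]
  ring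

theorem nw_sq_pX (hR : S.Reg) {q : ℝ × ℝ} (hq : e.R < q.1) :
    nw e j (Po.pX (e.Q j) (e.r j) q, 0) ^ 2 *
      (e.r j q ^ 2 + (e.r j q * Po.d1 (e.r j) q) ^ 2 + Po.d2 (e.r j) q ^ 2) = e.r j q ^ 4 := by
  have h := Po.ends_pol hR e j hq
  have h1 := congrArg (· ^ 2) (nw_pX (j := j) hR hq)
  simp only [mul_pow, Real.sq_sqrt h.Qv_pos.le, h.sg_sq] at h1
  rw [← h.Qv_eq, h1]
  ring

theorem nw_st (hS : S.Static) (p : ST) : nw e j p = nw e j (p.1, 0) := by
  rw [nw, nw, ← hS.n_eq p.1 p.2]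


theorem nw_eq_sum (p : ST) : nw e j p = ∑ d, S.nu d p * wv e j p.1 d := inner_eq_sum _ _

theorem Zf_apply (p : ST) (d : Fin 3) : Zf e a b p d =
    S.nu d p + ∑ j, chi e j a b p.1 * ((nw e j p)⁻¹ * wv e j p.1 d - S.nu d p) := by
  simp [Zf, Mv.nu, Finset.sum_apply]

theorem Zf_off (h : a < b) (hp : ∀ j, p ∈ Off e j a) : Zf e a b p = S.n p := by
  rw [Zf, Finset.sum_eq_zero fun j _ => by rw [chi_zero h (hp j), zero_smul], add_zero]

section
variable (hR : S.Reg) (hS : S.Static)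
include hR hS

theorem nw_ne (hp : p ∈ S.M) (ht : p ∈ tube e j e.R) : nw e j p ≠ 0 := by
  obtain ⟨θ, h⟩ := exists_pX hS hp ht
  have h1 := nw_sq_pX (j := j) hR (q := (xi e j p.1, θ)) ht.1
  have h2 := (e.near j (xi e j p.1, θ) ht.1).1
  rw [← h, ← nw_st hS] at h1
  intro h0
  rw [h0] at h1
  have : 0 < e.r j (xi e j p.1, θ) ^ 4 := by positivity
  linarith

/-- the normal is almost radial far out -/
theorem nw_far {δ : ℝ} (hδ : 0 < δ) : ∃ s₀ : ℝ, ∀ j, ∀ p ∈ S.M, p ∈ tube e j s₀ →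
    r2 e j p.1 ≤ (1 + 2 * δ ^ 2) * nw e j p ^ 2 := by
  choose s hs using fun j => e.lim j 1 δ hδ
  obtain ⟨s₀, h₀⟩ := (Set.finite_range s).bddAbove
  refine ⟨max s₀ e.R, fun j p hp ht => ?_⟩
  have ht' : p ∈ tube e j e.R := tube_mono (le_max_right _ _) ht
  obtain ⟨θ, h⟩ := exists_pX hS hp ht'
  set q : ℝ × ℝ := (xi e j p.1, θ)
  have h1 := nw_sq_pX (j := j) hR (q := q) ht'.1
  have h2 := (e.near j q ht'.1).1
  have h3 := hs j q (((h₀ (mem_range_self j)).trans (le_max_left _ _)).trans_lt ht.1)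
  rw [norm_iteratedFDeriv_one, fderiv_sub_const] at h3
  have h4 : ∀ w : ℝ × ℝ, ‖w‖ = 1 → fderiv ℝ (e.r j) q w ^ 2 ≤ δ ^ 2 := fun w hw => by
    have := (fderiv ℝ (e.r j) q).le_opNorm w
    rw [hw, mul_one, Real.norm_eq_abs] at this
    exact sq_le_sq' (abs_le.1 (this.trans h3)).1 (abs_le.1 (this.trans h3)).2
  have h5 : Po.d1 (e.r j) q ^ 2 ≤ δ ^ 2 := h4 (1, 0) (by simp)
  have h6 : Po.d2 (e.r j) q ^ 2 ≤ δ ^ 2 := h4 (0, 1) (by simp)
  have h7 : r2 e j p.1 = e.r j q ^ 2 := by rw [r2_eq_wv, h, Po.pX, wv_pol, sq_abs]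
  rw [← h, ← nw_st hS] at h1
  rw [h7]
  have h8 : 1 < e.r j q ^ 2 := by nlinarith
  have h9 : e.r j q ^ 2 + (e.r j q * Po.d1 (e.r j) q) ^ 2 + Po.d2 (e.r j) q ^ 2 ≤
      (1 + 2 * δ ^ 2) * e.r j q ^ 2 := by
    rw [mul_pow]
    nlinarith [mul_le_mul_of_nonneg_left h5 (by linarith : 0 ≤ e.r j q ^ 2), sq_nonneg δ]
  have := mul_le_mul_of_nonneg_left h9 (sq_nonneg (nw e j p))
  nlinarith

omit hS in
theorem sm_nw (j : Fin e.p) : S.Sm (nw e j) :=
  ContDiffOn.inner ℝ hR.sm_n (Mv.sm_of_contDiff ((contDiff_wv j).comp contDiff_fst))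

theorem sym1_nw (j : Fin e.p) (c : ℝ) : Sym S (fun _ => 1) (tube e j c) 0 (nw e j) :=
  (Sym.sum' hR pos_one (s := Finset.univ) fun d _ =>
    (sym1_nu hR hS e _ d).mul' hR pos_one (sym1_wv hR hS j c d) rfl).congr fun p _ => nw_eq_sum p

omit hR in
theorem Zf_tube' (ha : e.R < a) (h : a < b) (hp : p ∈ S.M) (ht : p ∈ tube e j e.R) :
    Zf e a b p = S.n p + chi e j a b p.1 • ((nw e j p)⁻¹ • wv e j p.1 - S.n p) := by
  rw [Zf, sum_chi_tube hS ha h hp ht]

omit hR in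
theorem Zf_tube (ha : e.R < a) (h : a < b) (hp : p ∈ S.M) (ht : p ∈ tube e j b) :
    Zf e a b p = (nw e j p)⁻¹ • wv e j p.1 := by
  rw [Zf_tube' hS ha h hp (tube_mono (ha.trans h).le ht), chi_one h ht, one_smul, add_sub_cancel]

theorem inner_Zf (ha : e.R < a) (h : a < b) (hp : p ∈ S.M) : ⟪S.n p, Zf e a b p⟫_ℝ = 1 := by
  rcases tube_or_allOff hS ha hp with ⟨j, hj⟩ | ho
  · rw [Zf_tube' hS ha h hp hj, inner_add_right, inner_smul_right, inner_sub_right,
      inner_smul_right, hR.inner_n hp, ← nw, inv_mul_cancel₀ (nw_ne hR hS hp hj)]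
    simp
  · rw [Zf_off h ho, hR.inner_n hp]

end

section
variable (hS : S.IsShr)
include hS

theorem nw_ge (hc : e.R < c) : ∃ k : ℝ, 0 < k ∧ ∀ j, ∀ p ∈ S.M, p ∈ tube e j c →
    k ≤ nw e j p ^ 2 := by
  obtain ⟨s₀, h₀⟩ := nw_far hS.reg hS.st (e := e) one_pos
  have key : ∀ j, ∃ k : ℝ, 0 < k ∧ ∀ p ∈ S.M, p ∈ tube e j c → k ≤ nw e j p ^ 2 := fun j => by
    set K : Set E := {x | (x, (0 : ℝ)) ∈ S.M ∧ c ≤ xi e j x ∧ xi e j x ≤ s₀ ∧ r2 e j x ≤ 4}
    have hKt : ∀ x ∈ K, (x, (0 : ℝ)) ∈ tube e j e.R := fun x hx =>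
      (tube_or_off hS.st hc hx.1 j).resolve_right fun h =>
        h.elim (fun h => absurd hx.2.1 (not_le.2 h)) fun h => by linarith [hx.2.2.2, h]
    have hK : IsCompact K := by
      refine (isCompact_closedBall (0 : E) (s₀ + 2)).of_isClosed_subset
        ((hS.closed.preimage (Continuous.prodMk_left 0)).inter
          ((isClosed_le continuous_const (contDiff_xi j).continuous).inter
          ((isClosed_le (contDiff_xi j).continuous continuous_const).inter
          (isClosed_le (contDiff_r2 j).continuous continuous_const)))) fun x hx => ?_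
      have := norm_le_of_tube (hKt x hx) (by linarith [R_pos e])
      rw [mem_closedBall_zero_iff]
      linarith [hx.2.2.1]
    have hc : ContinuousOn (fun x : E => nw e j (x, 0) ^ 2) K :=
      ((sm_nw hS.reg j).continuousOn.comp (Continuous.prodMk_left 0).continuousOn
        fun x hx => hx.1).pow 2
    obtain ⟨k, hk, H⟩ := hK.exists_forall_le' hc (a := 0) fun x hx =>
      sq_pos_of_ne_zero (nw_ne hS.reg hS.st hx.1 (hKt x hx))
    refine ⟨min k (1 / 3), by positivity, fun p hp ht => ?_⟩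
    by_cases h : xi e j p.1 ≤ s₀
    · rw [nw_st hS.st]
      exact (min_le_left _ _).trans (H p.1 ⟨(hS.st.mem p.1 p.2).1 hp, ht.1.le, h, ht.2.le⟩)
    · have h1 := h₀ j p hp ⟨not_le.1 h, ht.2⟩
      have h2 := one_lt_wv hS.st hp (tube_mono ‹e.R < c›.le ht)
      rw [r2_eq_wv] at h1
      exact (min_le_right _ _).trans (by nlinarith)
  choose k hk H using key
  obtain ⟨k₀, h0, h1⟩ := (Set.finite_range k).isCompact.exists_forall_le' continuousOn_id (a := 0)
    (by rintro _ ⟨j, rfl⟩; exact hk j)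
  exact ⟨k₀, h0, fun j p hp ht => (h1 _ (mem_range_self j)).trans (H j p hp ht)⟩

/-- `chi * f / ⟨n, w⟩` for `f` with bounded jets on the tube -/
theorem sym_chi_inv (ha' : e.R < a') (h : a' < b') (hf : Sym S (fun _ => 1) (tube e j e.R) 0 f)
    (m : ℤ) : Sym S (rho e a) univ m fun p => chi e j a' b' p.1 * ((nw e j p)⁻¹ * f p) := by
  obtain ⟨a₁, h1, h2⟩ := exists_between ha'
  obtain ⟨a₀, h0, h01⟩ := exists_between h1
  have hR3 := R_pos e
  obtain ⟨k, hk, H⟩ := nw_ge hS h0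
  have hR := hS.reg
  have sc := sym1_chi hR hS.st (j := j) h2 (c := a₀) (by linarith)
  have sn := sym1_nw hR hS.st j a₀
  have sq : Sym S (fun _ => 1) (tube e j a₀) 0 fun p =>
      chi e j a₁ a' p.1 * (nw e j p * nw e j p) + (1 - chi e j a₁ a' p.1) :=
    (sc.mul' hR pos_one (sn.mul' hR pos_one sn rfl) rfl).add' hR pos_one
      ((sym_const hR pos_one 1).sub' hR pos_one sc)
  have pos : ∀ p ∈ S.M, ∀ k', k' ≤ 1 → (p ∈ tube e j e.R → k' ≤ nw e j p ^ 2) →
      k' ≤ chi e j a₁ a' p.1 * (nw e j p * nw e j p) + (1 - chi e j a₁ a' p.1) := by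
    intro p hp k' hk1 hk'
    rcases tube_or_off hS.st h1 hp j with ht | ho
    · nlinarith [hk' ht, chi_nonneg j a₁ a' p.1, chi_le_one j a₁ a' p.1]
    · rw [chi_zero h2 ho]; linarith
  have si := sq.inv hR pos_one (c := min k 1) (fun p hp => by
      by_cases ht : p ∈ tube e j e.R
      · have := sq_pos_of_ne_zero (nw_ne hR hS.st hp ht)
        exact (lt_of_lt_of_le (lt_min this one_pos)
          (pos p hp _ (min_le_right _ _) fun _ => min_le_left _ _)).ne'
      · exact (one_pos.trans_le (pos p hp 1 le_rfl fun h => (ht h).elim)).ne')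
    (lt_min hk one_pos) fun p hp ht => by
      rw [one_zpow, mul_one]
      exact (pos p hp _ (min_le_right _ _) fun _ => (min_le_left _ _).trans (H j p hp ht)).trans
        (le_abs_self _)
  refine (sym_chi_mul hR hS.st ha' h (b := a₀) (by linarith) (by linarith)
    ((sn.mul' hR pos_one si rfl).mul' hR pos_one (hf.mono fun p _ h => tube_mono h0.le h) rfl)
    m).congr fun p hp => ?_
  by_cases hx : xi e j p.1 ≤ a'
  · rw [chi_zero_of_le h hx, zero_mul, zero_mul]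
  · rcases tube_or_off hS.st ha' hp j with ht | ho
    · rw [chi_one h2 ⟨not_le.1 hx, ht.2⟩]
      have := nw_ne hR hS.st hp ht
      field_simp
      ring
    · rw [chi_zero h ho, zero_mul, zero_mul]

/-- `Z - n` is supported in the tubes -/
theorem sym_Z_sub (ha' : e.R < a') (h : a' < b') (d : Fin 3) (m : ℤ) :
    Sym S (rho e a) univ m fun p => Zf e a' b' p d - S.nu d p :=
  (Sym.sum' hS.reg pos_rho (s := Finset.univ) fun j _ =>
    (sym_chi_inv hS ha' h (sym1_wv hS.reg hS.st j _ d) m).sub' hS.reg pos_rho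
      (sym_chi_mul hS.reg hS.st ha' h (b := e.R) (by linarith [R_pos e]) ha'
        (sym1_nu hS.reg hS.st e _ d) m)).congr fun p _ => by
    rw [Zf_apply, add_sub_cancel_left]
    exact Finset.sum_congr rfl fun j _ => by ring

theorem sym_Z (ha : e.R < a) (ha' : e.R < a') (h : a' < b') (d : Fin 3) :
    Sym S (rho e a) univ 0 fun p => Zf e a' b' p d :=
  ((sym_Z_sub hS ha' h d 0).add' hS.reg pos_rho (sym_nu hS.reg hS.st ha d)).congr fun p _ => by ring



/-- `x · ∇ n = 2 ∇ H` -/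
theorem dr_nu (hp : p ∈ S.M) (d : Fin 3) : ∑ k, p.1 k * S.D k (S.nu d) p = 2 * S.D d S.H p := by
  have hR := hS.reg
  have h1 : S.D d (S.xn 0) p = 2 * S.D d S.H p := by
    rw [← hR.D_const_mul hp 2 hR.sm_H]
    refine Mv.D_congr' hp (fun q hq => ?_) d
    have := hS.eq q hq
    rw [Mv.shr] at this
    linarith
  have h2 : S.xn 0 = ∑ k, S.pre.x k * S.nu k := funext fun q => by
    rw [xn_eq_sum, Finset.sum_apply]; rfl
  have h3 : ∑ k, S.P d k p * S.nu k p = 0 := by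
    have := hR.nn hp
    simp only [hR.P_eq hp, Fin.sum_univ_three] at this ⊢
    fin_cases d <;> simp <;> [linear_combination (-S.nu 0 p) * this;
      linear_combination (-S.nu 1 p) * this; linear_combination (-S.nu 2 p) * this]
  rw [← h1, h2, hR.D_sum hp _ fun k => (Mv.sm_x k).mul (hR.sm_nu k)]
  simp only [hR.D_mul hp (Mv.sm_x _) (hR.sm_nu _), Finset.sum_add_distrib]
  rw [show ∑ k, S.D d (S.pre.x k) p * S.nu k p = 0 from h3, add_zero]
  exact Finset.sum_congr rfl fun k _ => congrArg _ (hR.A_symm hp k d)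

/-- `ζ x · ∇ Z` is a symbol of order `-2` -/
theorem sym_dr_Z (ha : e.R < a) (ha' : e.R < a') (h : a' < b') {a₂ b₂ : ℝ} (h2 : e.R < a₂)
    (h3 : a₂ < b₂) (d : Fin 3) : Sym S (rho e a) univ (-2) fun p =>
      zeta e a₂ b₂ p.1 * ∑ k, p.1 k * S.D k (fun q => Zf e a' b' q d) p := by
  have hR := hS.reg
  have s1 := Sym.sum' hR pos_rho (s := Finset.univ) fun k _ =>
    (sym_zeta_x hR hS.st ha h2 h3 k).mul' hR pos_rho
      ((sym_Z_sub (a := a) hS ha' h d (-2)).D hR k) (k := -2) (by ring)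
  have s2 := (sym_zeta hR hS.st ha h2 h3).mul' hR pos_rho
    (((sym_H hR pos_rho (sym_nu hR hS.st ha)).D hR d).const_mul hR pos_rho 2) (k := -2) (by ring)
  refine (s1.add' hR pos_rho s2).congr fun p hp => ?_
  have : ∀ k, S.D k (fun q => Zf e a' b' q d - S.nu d q) p =
      S.D k (fun q => Zf e a' b' q d) p - S.D k (S.nu d) p :=
    fun k => hR.D_sub hp (sym_Z hS ha ha' h d).1 (hR.sm_nu d) k
  simp only [this, ← dr_nu hS hp d, Fin.sum_univ_three]
  ring

end

end Wr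

namespace WS.Geo

variable {X : Type} [TopologicalSpace X] [MeasurableSpace X] {G : Geo X}



end WS.Geo

namespace Wr.Prm

variable {S : Mv} (P : Prm S) {a b : ℝ} (ha : P.e.R < a) (h : a < b)

/-- the components of `Z` -/
def Zc (d : Fin 3) : P.geo.R :=
  mkR P.shr.reg (fun p => Zf P.e a b p d) (sym_Z P.shr ha ha h d).1

/-- the cut-off of the tube `j` -/
def chiR (j : Fin P.e.p) (a b : ℝ) : P.geo.R :=
  mkR P.shr.reg (fun p => chi P.e j a b p.1) (sm_amb (contDiff_chi j a b))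

theorem Zc_apply (d : Fin 3) (p : S.sl 0) : (P.Zc ha h d).1 p = Zf P.e a b (p, 0) d := rfl


theorem sy_Zc (d : Fin 3) : P.geo.Sy 0 (P.Zc ha h d) := P.sy (sym_Z P.shr P.ha ha h d)


theorem n_Zc : ∑ d, P.geo.n d * P.Zc ha h d = 1 := Subtype.ext (funext fun p => by
  have := inner_Zf P.shr.reg P.shr.st ha h (p := (p, 0)) p.2
  rw [inner_eq_sum] at this
  exact (val_sum P.shr.reg _ _ p).trans this)

theorem sy_dr_Zc (d : Fin 3) : P.geo.Sy (-2) (P.geo.ζ * P.geo.S.dr (P.Zc ha h d)) := by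
  have s := sym_dr_Z P.shr P.ha ha h P.ha' P.hab d
  have : P.geo.ζ * P.geo.S.dr (P.Zc ha h d) = mkR P.shr.reg _ s.1 := mkR_ext _ _ fun p =>
    congrArg (zeta P.e P.a' P.b' p * ·) (mv_dr P.shr.reg (sym_Z P.shr ha ha h d).1 p)
  rw [this]
  exact P.sy s



include P in
/-- functions on the slice with bounded support -/
theorem cs_of_bdd {G : Type} [Zero G] {u : S.sl 0 → G} {c : ℝ}
    (hu : ∀ p : S.sl 0, c < ‖(p : E)‖ → u p = 0) : HasCompactSupport u :=
  HasCompactSupport.intro (compact_sl P.shr.closed (c ^ 2)) fun p hp => hu p (by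
    by_contra h
    exact hp (pow_le_pow_left₀ (norm_nonneg _) (not_lt.1 h) 2))


end Wr.Prm

end Crest.Agent.N250

end
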