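import Crest.Agent.N250.Re.Pt
import Crest.Agent.N250.E.Pol
import Crest.Agent.N250.Master

-- ▼ part N250/Wr/Sym
section

/-!
# Row 250 (helper67): symbol calculus on a moving surface

`Sym F ρ U m f`: `f` is smooth on the track and `|δ^l f| ≤ C ρ^(m - |l|)` on `U`.
-/

set_option autoImplicit false
open Set Filter Topology
open scoped ContDiff InnerProductSpace
open Crest.GeometryTopology.MCF

noncomputable section

namespace Crest.Agent.N250.Wr

variable {F : Mv} {ρ ρ' : ST → ℝ} {U U' : Set ST} {m n : ℤ} {f g : ST → ℝ}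

/-- `|f| ≤ C ρ^m` on `U` -/
def Bd (F : Mv) (ρ : ST → ℝ) (U : Set ST) (m : ℤ) (f : ST → ℝ) : Prop :=
  ∃ C : ℝ, 0 ≤ C ∧ ∀ p ∈ F.M, p ∈ U → |f p| ≤ C * ρ p ^ m

/-- symbols of order `m` on `U` -/
def Sym (F : Mv) (ρ : ST → ℝ) (U : Set ST) (m : ℤ) (f : ST → ℝ) : Prop :=
  F.Sm f ∧ ∀ l : List (Fin 3), Bd F ρ U (m - l.length) (F.DL l f)

/-- positivity of the weight -/
def Pos (F : Mv) (ρ : ST → ℝ) (U : Set ST) : Prop := ∀ p ∈ F.M, p ∈ U → 0 < ρ p

/-- `f = g` near the points of `U` -/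
def EqN (F : Mv) (U : Set ST) (f g : ST → ℝ) : Prop := ∀ p ∈ F.M, p ∈ U → f =ᶠ[𝓝[F.M] p] g

theorem EqN.of_on (e : ∀ q ∈ F.M, f q = g q) : EqN F U f g := fun _ _ _ => Mv.ev_of_eqOn e

theorem EqN.eq (e : EqN F U f g) {p : ST} (hp : p ∈ F.M) (hU : p ∈ U) : f p = g p :=
  (e p hp hU).self_of_nhdsWithin hp

theorem EqN.symm (e : EqN F U f g) : EqN F U g f := fun p hp hU => (e p hp hU).symm

theorem EqN.D (e : EqN F U f g) (a : Fin 3) : EqN F U (F.D a f) (F.D a g) :=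
  fun p hp hU => Mv.eventually_D_congr (e p hp hU) a

theorem EqN.DL (e : EqN F U f g) (l : List (Fin 3)) : EqN F U (F.DL l f) (F.DL l g) :=
  fun p hp hU => Mv.DL_congr (e p hp hU) l

theorem EqN.of_open {O : Set ST} (hO : IsOpen O) (hU : ∀ p ∈ F.M, p ∈ U → p ∈ O)
    (e : ∀ q ∈ F.M, q ∈ O → f q = g q) : EqN F U f g := fun p hp hpU => by
  filter_upwards [mem_nhdsWithin_of_mem_nhds (hO.mem_nhds (hU p hp hpU)), self_mem_nhdsWithin]
    with q h1 h2 using e q h2 h1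

theorem Pos.mono (h : Pos F ρ U) (hU : ∀ p ∈ F.M, p ∈ U' → p ∈ U) : Pos F ρ U' :=
  fun p hp h' => h p hp (hU p hp h')

theorem pos_one : Pos F (fun _ => 1) U := fun _ _ _ => one_pos


theorem DL_concat (a : Fin 3) (l : List (Fin 3)) (f : ST → ℝ) :
    F.DL (l ++ [a]) f = F.DL l (F.D a f) := by simp [Mv.DL]

/-! ### bounds -/

theorem bd_of (hρ : Pos F ρ U) {C : ℝ} (h : ∀ p ∈ F.M, p ∈ U → |f p| ≤ C * ρ p ^ m) :
    Bd F ρ U m f :=
  ⟨max C 0, le_max_right _ _, fun p hp hU => (h p hp hU).trans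
    (mul_le_mul_of_nonneg_right (le_max_left _ _) (zpow_pos (hρ p hp hU) _).le)⟩

theorem Bd.mono (h : Bd F ρ U m f) (hU : ∀ p ∈ F.M, p ∈ U' → p ∈ U) : Bd F ρ U' m f :=
  let ⟨C, h0, h⟩ := h; ⟨C, h0, fun p hp h' => h p hp (hU p hp h')⟩

theorem Bd.congr (h : Bd F ρ U m f) (e : ∀ p ∈ F.M, p ∈ U → g p = f p) : Bd F ρ U m g :=
  let ⟨C, h0, h⟩ := h; ⟨C, h0, fun p hp hU => by rw [e p hp hU]; exact h p hp hU⟩

theorem Bd.cast (h : Bd F ρ U m f) (e : m = n) : Bd F ρ U n f := e ▸ h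

theorem Bd.add (hf : Bd F ρ U m f) (hg : Bd F ρ U m g) : Bd F ρ U m (f + g) := by
  obtain ⟨C, h0, h⟩ := hf
  obtain ⟨C', h0', h'⟩ := hg
  refine ⟨C + C', by positivity, fun p hp hU => ?_⟩
  have := abs_add_le (f p) (g p)
  have := h p hp hU
  have := h' p hp hU
  simp only [Pi.add_apply]
  linarith

theorem Bd.mul (hρ : Pos F ρ U) (hf : Bd F ρ U m f) (hg : Bd F ρ U n g) :
    Bd F ρ U (m + n) (f * g) := by
  obtain ⟨C, h0, h⟩ := hf
  obtain ⟨C', h0', h'⟩ := hg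
  refine ⟨C * C', by positivity, fun p hp hU => ?_⟩
  have hp0 := hρ p hp hU
  rw [Pi.mul_apply, abs_mul, zpow_add₀ hp0.ne']
  calc |f p| * |g p| ≤ (C * ρ p ^ m) * (C' * ρ p ^ n) :=
        mul_le_mul (h p hp hU) (h' p hp hU) (abs_nonneg _) (by positivity)
    _ = _ := by ring

theorem Bd.union (hρ : Pos F ρ (U ∪ U')) (h : Bd F ρ U m f) (h' : Bd F ρ U' m f) :
    Bd F ρ (U ∪ U') m f := by
  obtain ⟨C, h0, h⟩ := h
  obtain ⟨C', h0', h'⟩ := h'
  refine ⟨C + C', by positivity, fun p hp hU => ?_⟩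
  have hp0 := zpow_pos (hρ p hp hU) m
  rcases hU with hU | hU
  · have := h p hp hU
    nlinarith
  · have := h' p hp hU
    nlinarith

theorem zpow_le_of_cmp {x y K : ℝ} (hx : 0 < x) (hy : 0 < y) (h1 : x ≤ K * y) (h2 : y ≤ K * x)
    (m : ℤ) : x ^ m ≤ K ^ m.natAbs * y ^ m := by
  have hK : 0 < K := by
    by_contra h
    nlinarith [not_lt.1 h]
  obtain ⟨k, rfl | rfl⟩ := Int.eq_nat_or_neg m
  · rw [Int.natAbs_natCast, zpow_natCast, zpow_natCast, ← mul_pow]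
    exact pow_le_pow_left₀ hx.le h1 k
  · rw [Int.natAbs_neg, Int.natAbs_natCast, zpow_neg, zpow_neg, zpow_natCast, zpow_natCast,
      ← div_eq_mul_inv, le_div_iff₀ (pow_pos hy k), inv_mul_le_iff₀ (pow_pos hx k), ← mul_pow]
    exact pow_le_pow_left₀ hy.le (by linarith) k

/-- change of weight -/
theorem Bd.weight (hρ : Pos F ρ U) (hρ' : Pos F ρ' U) {K : ℝ}
    (h1 : ∀ p ∈ F.M, p ∈ U → ρ p ≤ K * ρ' p) (h2 : ∀ p ∈ F.M, p ∈ U → ρ' p ≤ K * ρ p)
    (h : Bd F ρ U m f) : Bd F ρ' U m f := by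
  obtain ⟨C, h0, h⟩ := h
  refine bd_of hρ' (C := C * K ^ m.natAbs) fun p hp hU => (h p hp hU).trans ?_
  rw [mul_assoc]
  exact mul_le_mul_of_nonneg_left
    (zpow_le_of_cmp (hρ p hp hU) (hρ' p hp hU) (h1 p hp hU) (h2 p hp hU) m) h0

theorem Bd.one_cast (h : Bd F (fun _ => 1) U m f) : Bd F (fun _ => 1) U n f := by
  obtain ⟨C, h0, h⟩ := h
  exact ⟨C, h0, fun p hp hU => by simpa using h p hp hU⟩

theorem Bd.le (h1 : ∀ p ∈ F.M, p ∈ U → 1 ≤ ρ p) (hmn : m ≤ n) (h : Bd F ρ U m f) :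
    Bd F ρ U n f := by
  obtain ⟨C, h0, h⟩ := h
  exact ⟨C, h0, fun p hp hU => (h p hp hU).trans
    (mul_le_mul_of_nonneg_left (zpow_le_zpow_right₀ (h1 p hp hU) hmn) h0)⟩

theorem bd_zero (m : ℤ) : Bd F ρ U m fun _ => 0 := ⟨0, le_rfl, fun p _ _ => by simp⟩

theorem bd_const (c : ℝ) : Bd F ρ U 0 fun _ => c := ⟨|c|, abs_nonneg _, fun p _ _ => by simp⟩

/-! ### symbols -/

theorem Sym.sm (h : Sym F ρ U m f) : F.Sm f := h.1

theorem Sym.bd (h : Sym F ρ U m f) : Bd F ρ U m f := by simpa [Mv.DL] using h.2 []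

theorem Sym.cast (h : Sym F ρ U m f) (e : m = n) : Sym F ρ U n f := e ▸ h

theorem Sym.D (hF : F.Reg) (h : Sym F ρ U m f) (a : Fin 3) : Sym F ρ U (m - 1) (F.D a f) :=
  ⟨hF.sm_D h.1 a, fun l => by
    have := h.2 (l ++ [a])
    rw [DL_concat] at this
    exact this.cast (by simp; ring)⟩

theorem Sym.DL (hF : F.Reg) (h : Sym F ρ U m f) (l : List (Fin 3)) :
    Sym F ρ U (m - l.length) (F.DL l f) := by
  induction l with
  | nil => simpa [Mv.DL] using h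
  | cons a l ih => exact (ih.D hF a).cast (by simp; ring)

theorem Sym.mono (h : Sym F ρ U m f) (hU : ∀ p ∈ F.M, p ∈ U' → p ∈ U) : Sym F ρ U' m f :=
  ⟨h.1, fun l => (h.2 l).mono hU⟩

theorem Sym.congrN (h : Sym F ρ U m f) (hg : F.Sm g) (e : EqN F U g f) : Sym F ρ U m g :=
  ⟨hg, fun l => (h.2 l).congr fun _ hp hU => (e.DL l).eq hp hU⟩

theorem Sym.congr (h : Sym F ρ U m f) (e : ∀ p ∈ F.M, g p = f p) : Sym F ρ U m g :=
  h.congrN (h.1.congr e) (.of_on e)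

theorem Sym.union (hρ : Pos F ρ (U ∪ U')) (h : Sym F ρ U m f) (h' : Sym F ρ U' m f) :
    Sym F ρ (U ∪ U') m f := ⟨h.1, fun l => (h.2 l).union hρ (h'.2 l)⟩

theorem Sym.weight (hρ : Pos F ρ U) (hρ' : Pos F ρ' U) {K : ℝ}
    (h1 : ∀ p ∈ F.M, p ∈ U → ρ p ≤ K * ρ' p) (h2 : ∀ p ∈ F.M, p ∈ U → ρ' p ≤ K * ρ p)
    (h : Sym F ρ U m f) : Sym F ρ' U m f := ⟨h.1, fun l => (h.2 l).weight hρ hρ' h1 h2⟩

theorem Sym.one_cast (h : Sym F (fun _ => 1) U m f) : Sym F (fun _ => 1) U n f :=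
  ⟨h.1, fun l => (h.2 l).one_cast⟩

theorem Sym.le (h1 : ∀ p ∈ F.M, p ∈ U → 1 ≤ ρ p) (hmn : m ≤ n) (h : Sym F ρ U m f) :
    Sym F ρ U n f := ⟨h.1, fun l => (h.2 l).le h1 (by omega)⟩

/-- the graded algebra generated by the class `𝒞` and the symbols -/
inductive Gen (F : Mv) (ρ : ST → ℝ) (U : Set ST) (𝒞 : ℤ → (ST → ℝ) → Prop) :
    ℤ → (ST → ℝ) → Prop
  | base {m : ℤ} {f : ST → ℝ} : 𝒞 m f → Gen F ρ U 𝒞 m f
  | sym {m : ℤ} {f : ST → ℝ} : Sym F ρ U m f → Gen F ρ U 𝒞 m f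
  | add {m : ℤ} {f g : ST → ℝ} : Gen F ρ U 𝒞 m f → Gen F ρ U 𝒞 m g → Gen F ρ U 𝒞 m (f + g)
  | mul {m n : ℤ} {f g : ST → ℝ} :
      Gen F ρ U 𝒞 m f → Gen F ρ U 𝒞 n g → Gen F ρ U 𝒞 (m + n) (f * g)
  | congrN {m : ℤ} {f g : ST → ℝ} : Gen F ρ U 𝒞 m f → F.Sm g → EqN F U g f → Gen F ρ U 𝒞 m g

variable {𝒞 : ℤ → (ST → ℝ) → Prop}

theorem Gen.cast (h : Gen F ρ U 𝒞 m f) (e : m = n) : Gen F ρ U 𝒞 n f := e ▸ h

/-- coinduction: a class whose derivatives lie in the algebra it generates consists of symbols -/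
theorem Gen.toSym (hF : F.Reg) (hρ : Pos F ρ U) (hs : ∀ m f, 𝒞 m f → F.Sm f)
    (hb : ∀ m f, 𝒞 m f → Bd F ρ U m f)
    (hD : ∀ m f, 𝒞 m f → ∀ a, Gen F ρ U 𝒞 (m - 1) (F.D a f))
    (h : Gen F ρ U 𝒞 m f) : Sym F ρ U m f := by
  have h1 : ∀ {m f}, Gen F ρ U 𝒞 m f → F.Sm f ∧ Bd F ρ U m f := by
    intro m f h
    induction h with
    | base h => exact ⟨hs _ _ h, hb _ _ h⟩
    | sym h => exact ⟨h.1, h.bd⟩
    | add _ _ i j => exact ⟨i.1.add j.1, i.2.add j.2⟩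
    | mul _ _ i j => exact ⟨i.1.mul j.1, i.2.mul hρ j.2⟩
    | congrN _ hg e i => exact ⟨hg, i.2.congr fun _ hp hU => e.eq hp hU⟩
  have h2 : ∀ {m f}, Gen F ρ U 𝒞 m f → ∀ a, Gen F ρ U 𝒞 (m - 1) (F.D a f) := by
    intro m f h a
    induction h with
    | base h => exact hD _ _ h a
    | sym h => exact .sym (h.D hF a)
    | add hf hg i j =>
      exact (i.add j).congrN (hF.sm_D ((h1 hf).1.add (h1 hg).1) a)
        (.of_on fun p hp => hF.D_add hp (h1 hf).1 (h1 hg).1 a)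
    | @mul m n f g hf hg i j =>
      exact (((hf.mul j).cast (by ring : _ = m + n - 1)).add
        ((i.mul hg).cast (by ring))).congrN (hF.sm_D ((h1 hf).1.mul (h1 hg).1) a)
        (.of_on fun p hp => hF.D_mul hp (h1 hf).1 (h1 hg).1 a)
    | congrN _ hg e i => exact i.congrN (hF.sm_D hg a) (e.D a)
  refine ⟨(h1 h).1, fun l => (h1 ?_).2⟩
  induction l with
  | nil => simpa [Mv.DL] using h
  | cons a l ih => exact (h2 ih a).cast (by simp; ring)

theorem Gen.toSym0 (hF : F.Reg) (hρ : Pos F ρ U) (h : Gen F ρ U (fun _ _ => False) m f) :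
    Sym F ρ U m f :=
  h.toSym hF hρ (fun _ _ h => h.elim) (fun _ _ h => h.elim) (fun _ _ h => h.elim)

theorem sym_zero (hF : F.Reg) (hρ : Pos F ρ U) (m : ℤ) : Sym F ρ U m fun _ => 0 := by
  refine Gen.toSym (𝒞 := fun _ f => f = fun _ => 0) hF hρ (fun _ _ h => h ▸ Mv.sm_const 0)
    (fun m _ h => h ▸ bd_zero m) ?_ (.base rfl)
  rintro _ _ rfl a
  exact (Gen.base rfl).congrN (hF.sm_D (Mv.sm_const 0) a) (.of_on fun _ hp => hF.D_const hp 0 a)

/-- one step unfolding -/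
theorem sym_of_D (hf : F.Sm f) (hb : Bd F ρ U m f) (hD : ∀ a, Sym F ρ U (m - 1) (F.D a f)) :
    Sym F ρ U m f := ⟨hf, fun l => by
  rcases List.eq_nil_or_concat l with rfl | ⟨l, a, rfl⟩
  · simpa [Mv.DL] using hb
  · rw [List.concat_eq_append, DL_concat]
    exact ((hD a).2 l).cast (by simp; ring)⟩

theorem sym_const (hF : F.Reg) (hρ : Pos F ρ U) (c : ℝ) : Sym F ρ U 0 fun _ => c :=
  sym_of_D (Mv.sm_const c) (bd_const c) fun a =>
    (sym_zero hF hρ _).congr fun _ hp => hF.D_const hp c a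

section
variable (hF : F.Reg) (hρ : Pos F ρ U)
include hF hρ

theorem Sym.add (hf : Sym F ρ U m f) (hg : Sym F ρ U m g) : Sym F ρ U m (f + g) :=
  ((Gen.sym hf).add (.sym hg)).toSym0 hF hρ

theorem Sym.mul (hf : Sym F ρ U m f) (hg : Sym F ρ U n g) : Sym F ρ U (m + n) (f * g) :=
  ((Gen.sym hf).mul (.sym hg)).toSym0 hF hρ

theorem Sym.mul' {k : ℤ} (hf : Sym F ρ U m f) (hg : Sym F ρ U n g) (e : m + n = k) :
    Sym F ρ U k fun p => f p * g p := (hf.mul hF hρ hg).cast e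

theorem Sym.const_mul (c : ℝ) (hf : Sym F ρ U m f) : Sym F ρ U m fun p => c * f p :=
  (sym_const hF hρ c).mul' hF hρ hf (zero_add m)

theorem Sym.neg (hf : Sym F ρ U m f) : Sym F ρ U m (-f) :=
  (hf.const_mul hF hρ (-1)).congr fun p _ => by simp

theorem Sym.sub (hf : Sym F ρ U m f) (hg : Sym F ρ U m g) : Sym F ρ U m (f - g) :=
  (hf.add hF hρ (hg.neg hF hρ)).congr fun p _ => by simp [sub_eq_add_neg]

theorem Sym.add' (hf : Sym F ρ U m f) (hg : Sym F ρ U m g) : Sym F ρ U m fun p => f p + g p :=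
  hf.add hF hρ hg

theorem Sym.sub' (hf : Sym F ρ U m f) (hg : Sym F ρ U m g) : Sym F ρ U m fun p => f p - g p :=
  hf.sub hF hρ hg

theorem Sym.sum {κ : Type} {s : Finset κ} {f : κ → ST → ℝ} (hf : ∀ i ∈ s, Sym F ρ U m (f i)) :
    Sym F ρ U m (∑ i ∈ s, f i) := by
  classical
  induction s using Finset.induction_on with
  | empty => exact sym_zero hF hρ m
  | insert i s hi ih =>
    rw [Finset.sum_insert hi]
    exact (hf i (Finset.mem_insert_self _ _)).add hF hρ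
      (ih fun j hj => hf j (Finset.mem_insert_of_mem hj))

theorem Sym.sum' {κ : Type} {s : Finset κ} {f : κ → ST → ℝ} (hf : ∀ i ∈ s, Sym F ρ U m (f i)) :
    Sym F ρ U m fun p => ∑ i ∈ s, f i p :=
  (Sym.sum hF hρ hf).congr fun p _ => by simp


theorem Sym.pow (hf : Sym F ρ U m f) (k : ℕ) : Sym F ρ U (k * m) fun p => f p ^ k := by
  induction k with
  | zero => simpa using sym_const hF hρ 1
  | succ k ih => exact (ih.mul' hF hρ hf (by push_cast; ring)).congr fun p _ => pow_succ _ _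

/-- the inverse of an elliptic symbol -/
theorem Sym.inv (hf : Sym F ρ U m f) (h0 : ∀ p ∈ F.M, f p ≠ 0) {c : ℝ} (hc : 0 < c)
    (hl : ∀ p ∈ F.M, p ∈ U → c * ρ p ^ m ≤ |f p|) : Sym F ρ U (-m) fun p => (f p)⁻¹ := by
  have hs : F.Sm fun p => (f p)⁻¹ := ContDiffOn.inv hf.1 h0
  refine Gen.toSym (𝒞 := fun k g => k = -m ∧ g = fun p => (f p)⁻¹) hF hρ
    (fun _ _ h => h.2 ▸ hs) ?_ ?_ (.base ⟨rfl, rfl⟩)
  · rintro _ _ ⟨rfl, rfl⟩
    refine ⟨c⁻¹, by positivity, fun p hp hU => ?_⟩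
    have := zpow_pos (hρ p hp hU) m
    rw [abs_inv, zpow_neg, ← mul_inv]
    exact inv_anti₀ (by positivity) (hl p hp hU)
  · rintro _ _ ⟨rfl, rfl⟩ a
    have b : Gen F ρ U (fun k g => k = -m ∧ g = fun p => (f p)⁻¹) (-m) fun p => (f p)⁻¹ :=
      .base ⟨rfl, rfl⟩
    refine (((b.mul b).mul (.sym ((hf.D hF a).neg hF hρ))).cast (by ring)).congrN (hF.sm_D hs a)
      (.of_on fun p hp => ?_)
    rw [hF.D_comp hp hf.1 (hasDerivAt_inv (h0 p hp)) a]
    simp only [Pi.mul_apply, Pi.neg_apply]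
    have := h0 p hp
    field_simp

/-- composition with a smooth function of one variable -/
theorem Sym.comp {O K : Set ℝ} (hO : IsOpen O) (hK : IsCompact K) (hKO : K ⊆ O)
    (hf : Sym F ρ U 0 f) (hfO : ∀ p ∈ F.M, f p ∈ O) (hfK : ∀ p ∈ F.M, p ∈ U → f p ∈ K)
    {ψ : ℝ → ℝ} (hψ : ContDiffOn ℝ ∞ ψ O) : Sym F ρ U 0 fun p => ψ (f p) := by
  have hs : ∀ ψ : ℝ → ℝ, ContDiffOn ℝ ∞ ψ O → F.Sm fun p => ψ (f p) :=
    fun ψ hψ => hψ.comp hf.1 hfO
  refine Gen.toSym (𝒞 := fun k g => k = 0 ∧ ∃ ψ : ℝ → ℝ, ContDiffOn ℝ ∞ ψ O ∧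
    g = fun p => ψ (f p)) hF hρ ?_ ?_ ?_ (.base ⟨rfl, ψ, hψ, rfl⟩)
  · rintro _ _ ⟨rfl, ψ, hψ, rfl⟩
    exact hs ψ hψ
  · rintro _ _ ⟨rfl, ψ, hψ, rfl⟩
    obtain ⟨C, hC⟩ := hK.exists_bound_of_continuousOn (hψ.continuousOn.mono hKO)
    exact bd_of hρ (C := C) fun p hp hU => by simpa using hC _ (hfK p hp hU)
  · rintro _ _ ⟨rfl, ψ, hψ, rfl⟩ a
    have hd : ContDiffOn ℝ ∞ (deriv ψ) O := hψ.deriv_of_isOpen hO (by simp)
    refine (((Gen.base ⟨rfl, deriv ψ, hd, rfl⟩).mul (.sym (hf.D hF a))).cast (by ring)).congrN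
      (hF.sm_D (hs ψ hψ) a) (.of_on fun p hp => ?_)
    rw [hF.D_comp hp hf.1 (((hψ.contDiffAt (hO.mem_nhds (hfO p hp))).differentiableAt
      (by simp)).hasDerivAt) a]
    rfl


/-- powers of the weight -/
theorem sym_zpow (hs : F.Sm ρ) (h0 : ∀ p ∈ F.M, 0 < ρ p)
    (h2 : Sym F ρ U 2 fun p => ρ p * ρ p) (m : ℤ) : Sym F ρ U m fun p => ρ p ^ m := by
  have hz : ∀ m : ℤ, F.Sm fun p => ρ p ^ m := fun m => by
    obtain ⟨k, rfl | rfl⟩ := Int.eq_nat_or_neg m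
    · simp only [zpow_natCast]
      exact ContDiffOn.pow hs k
    · simp only [zpow_neg, zpow_natCast]
      exact ContDiffOn.inv (ContDiffOn.pow hs k) fun p hp => (pow_pos (h0 p hp) k).ne'
  refine Gen.toSym (𝒞 := fun k g => g = fun p => ρ p ^ k) hF hρ (fun _ _ h => h ▸ hz _) ?_ ?_
    (.base rfl)
  · rintro k _ rfl
    exact ⟨1, one_pos.le, fun p hp hU => by
      rw [one_mul, abs_of_pos (zpow_pos (hρ p hp hU) k)]⟩
  · rintro k _ rfl a
    refine (((Gen.base (m := k - 2) rfl).mul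
      (.sym ((h2.D hF a).const_mul hF hρ (k / 2)))).cast (by ring)).congrN
      (hF.sm_D (hz k) a) (.of_on fun p hp => ?_)
    have hp0 := (h0 p hp).ne'
    rw [hF.D_comp hp hs (hasDerivAt_zpow k _ (Or.inl hp0)) a]
    have := hF.D_mul hp hs hs a
    simp only [Pi.mul_apply]
    rw [show (fun p => ρ p * ρ p) = ρ * ρ from rfl, this, zpow_sub₀ hp0, zpow_sub₀ hp0]
    field_simp
    ring

variable (hν : ∀ a, Sym F ρ U 0 (F.nu a))
include hν

theorem sym_P (a b : Fin 3) : Sym F ρ U 0 (F.P a b) :=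
  ((sym_const hF hρ (if a = b then 1 else 0)).sub' hF hρ
    ((hν a).mul' hF hρ (hν b) (add_zero 0))).congr fun _ hp => hF.P_eq hp a b

omit hρ in
theorem sym_A (a b : Fin 3) : Sym F ρ U (-1) (F.A a b) := ((hν b).D hF a).cast (by ring)

theorem sym_H : Sym F ρ U (-1) F.H := Sym.sum hF hρ fun a _ => sym_A hF hν a a

theorem sym_A2 : Sym F ρ U (-2) F.A2 :=
  Sym.sum hF hρ fun a _ => Sym.sum hF hρ fun b _ =>
    ((sym_A hF hν a b).mul hF hρ (sym_A hF hν a b)).cast (by ring)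

theorem sym_x (hx : ∀ a, Bd F ρ U 1 fun p => p.1 a) (a : Fin 3) : Sym F ρ U 1 fun p => p.1 a :=
  sym_of_D (Mv.sm_x a) (hx a) fun b => (sym_P hF hρ hν b a).cast (by ring)

/-- ambient symbols: a class of smooth functions closed under partial derivatives -/
theorem sym_amb (𝒜 : ℤ → (E → ℝ) → Prop) (hs : ∀ m g, 𝒜 m g → ContDiff ℝ ∞ g)
    (hb : ∀ m g, 𝒜 m g → Bd F ρ U m fun p => g p.1)
    (hD : ∀ m g, 𝒜 m g → ∀ b, 𝒜 (m - 1) fun x => fderiv ℝ g x (ee b)) {g : E → ℝ} (hg : 𝒜 m g) :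
    Sym F ρ U m fun p => g p.1 := by
  have hsm : ∀ g : E → ℝ, ContDiff ℝ ∞ g → F.Sm fun p => g p.1 :=
    fun g hg => Mv.sm_of_contDiff (hg.comp contDiff_fst)
  refine Gen.toSym (𝒞 := fun k f => ∃ g, 𝒜 k g ∧ f = fun p => g p.1) hF hρ ?_ ?_ ?_
    (.base ⟨g, hg, rfl⟩)
  · rintro _ _ ⟨g, hg, rfl⟩
    exact hsm g (hs _ g hg)
  · rintro _ _ ⟨g, hg, rfl⟩
    exact hb _ g hg
  · rintro k _ ⟨g, hg, rfl⟩ a
    have t : ∀ b, Gen F ρ U (fun k f => ∃ g, 𝒜 k g ∧ f = fun p => g p.1) (k - 1)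
        (F.P a b * fun p => fderiv ℝ g p.1 (ee b)) := fun b =>
      ((Gen.sym (sym_P hF hρ hν a b)).mul (.base ⟨_, hD _ g hg b, rfl⟩)).cast (by ring)
    refine (((t 0).add (t 1)).add (t 2)).congrN (hF.sm_D (hsm g (hs _ g hg)) a)
      (.of_on fun p hp => ?_)
    have hd : DifferentiableAt ℝ g p.1 := (hs _ g hg).differentiable (by simp) _
    have h1 : HasFDerivAt (fun p : ST => g p.1)
        ((fderiv ℝ g p.1).comp (ContinuousLinearMap.fst ℝ E ℝ)) p :=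
      hd.hasFDerivAt.comp p hasFDerivAt_fst
    rw [hF.D_amb hp h1.differentiableAt a, h1.fderiv]
    simp only [ContinuousLinearMap.comp_apply, ContinuousLinearMap.coe_fst', Pi.add_apply,
      Pi.mul_apply]
    rw [eq_sum_ee (F.PL p (ee a)), map_sum, Fin.sum_univ_three]
    simp only [map_smul, smul_eq_mul, Mv.PL_ee, hF.P_eq hp]

end

/-- on a bounded region every smooth ambient function has bounded jets -/
theorem sym_amb_bdd (hF : F.Reg) (hν : ∀ a, Sym F (fun _ => 1) U 0 (F.nu a)) {R : ℝ}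
    (hU : ∀ p ∈ F.M, p ∈ U → ‖p.1‖ ≤ R) {g : E → ℝ} (hg : ContDiff ℝ ∞ g) (m : ℤ) :
    Sym F (fun _ => 1) U m fun p => g p.1 := by
  refine sym_amb hF pos_one hν (fun _ g => ContDiff ℝ ∞ g) (fun _ _ h => h) ?_ ?_ hg
  · intro k g hg
    obtain ⟨C, hC⟩ := (isCompact_closedBall (0 : E) R).exists_bound_of_continuousOn
      hg.continuous.continuousOn
    exact bd_of pos_one (C := C) fun p hp hpU => by
      simpa using hC p.1 (by simpa using hU p hp hpU)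
  · intro k g hg b
    exact (hg.fderiv_right (m := ∞) (by simp)).clm_apply contDiff_const

end Crest.Agent.N250.Wr

end
end

-- ▼ part N250/Wr/Dat

/-!
# Row 250 (helper67): tubes, cut-offs and the weight `ρ` of a shrinker with ends
-/

set_option autoImplicit false
open Set Filter Topology
open scoped ContDiff InnerProductSpace
open Crest.GeometryTopology.MCF

noncomputable section

namespace Crest.Agent.N250.Wr

/-- smooth step, `0` at `a`, `1` at `b` -/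
def st (a b t : ℝ) : ℝ := Real.smoothTransition ((t - a) / (b - a))

theorem st_nonneg (a b t : ℝ) : 0 ≤ st a b t := Real.smoothTransition.nonneg _

theorem st_le_one (a b t : ℝ) : st a b t ≤ 1 := Real.smoothTransition.le_one _

theorem st_zero {a b t : ℝ} (h : a < b) (ht : t ≤ a) : st a b t = 0 :=
  Real.smoothTransition.zero_of_nonpos (div_nonpos_of_nonpos_of_nonneg (by linarith) (by linarith))

theorem st_one {a b t : ℝ} (h : a < b) (ht : b ≤ t) : st a b t = 1 :=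
  Real.smoothTransition.one_of_one_le ((one_le_div (by linarith)).2 (by linarith))

theorem st_zero' {a b t : ℝ} (h : b < a) (ht : a ≤ t) : st a b t = 0 :=
  Real.smoothTransition.zero_of_nonpos (div_nonpos_of_nonneg_of_nonpos (by linarith) (by linarith))

theorem st_one' {a b t : ℝ} (h : b < a) (ht : t ≤ b) : st a b t = 1 :=
  Real.smoothTransition.one_of_one_le ((one_le_div_of_neg (by linarith)).2 (by linarith))

theorem contDiff_st (a b : ℝ) : ContDiff ℝ ∞ (st a b) :=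
  Real.smoothTransition.contDiff.comp ((contDiff_id.sub contDiff_const).div_const _)

/-- `√(1 + |x|²)` -/
def rho0 (p : ST) : ℝ := √(1 + ‖p.1‖ ^ 2)

theorem one_le_rho0 (p : ST) : 1 ≤ rho0 p := Real.one_le_sqrt.2 (by nlinarith [sq_nonneg ‖p.1‖])

theorem rho0_pos (p : ST) : 0 < rho0 p := one_pos.trans_le (one_le_rho0 p)

theorem norm_le_rho0 (p : ST) : ‖p.1‖ ≤ rho0 p := Real.le_sqrt_of_sq_le (by linarith)

theorem rho0_le (p : ST) : rho0 p ≤ 1 + ‖p.1‖ :=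
  Real.sqrt_le_iff.2 ⟨by positivity, by nlinarith [norm_nonneg p.1]⟩

theorem rho0_sq (p : ST) : rho0 p ^ 2 = 1 + ‖p.1‖ ^ 2 := Real.sq_sqrt (by positivity)

/-- the region `|x| ≤ c` -/
def Bl (c : ℝ) : Set ST := {p | ‖p.1‖ ≤ c}

variable {S : Mv} (e : Ends S)

/-- the axis of the end `j` -/
def ax (j : Fin e.p) : E := e.Q j (ee 0)

/-- the axial coordinate -/
def xi (j : Fin e.p) (x : E) : ℝ := ⟪ax e j, x⟫_ℝ

/-- the squared distance to the axis -/
def r2 (j : Fin e.p) (x : E) : ℝ := ‖x‖ ^ 2 - xi e j x ^ 2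

/-- the radial vector -/
def wv (j : Fin e.p) (x : E) : E := x - xi e j x • ax e j

/-- the tube `j` beyond `a` (open) -/
def tube (j : Fin e.p) (a : ℝ) : Set ST := {p | a < xi e j p.1 ∧ r2 e j p.1 < 4}

/-- off the tube `j` beyond `a` (open) -/
def Off (j : Fin e.p) (a : ℝ) : Set ST := {p | xi e j p.1 < a ∨ 9 < r2 e j p.1}

/-- the conical region beyond `c` -/
def Con (c : ℝ) : Set ST := {p | c < ‖p.1‖ ∧ ∀ j, (e.Q j).symm p.1 ∉ cone0 e.ε}

/-- cut-off: `0` off the tube `j` and for `ξ ≤ a`, `1` on the tube for `ξ ≥ b` -/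
def chi (j : Fin e.p) (a b : ℝ) (x : E) : ℝ := st 9 4 (r2 e j x) * st a b (xi e j x)

/-- `1 - ∑ j, chi j a b` on the surface -/
def zeta (a b : ℝ) (x : E) : ℝ := ∏ j, (1 - chi e j a b x)

/-- the weight: `√(1 + |x|²)` off the tubes beyond `a`, `1` on the tubes beyond `a + 1` -/
def rho (a : ℝ) (p : ST) : ℝ := √(1 + zeta e a (a + 1) p.1 * ‖p.1‖ ^ 2)

variable {e} {i j : Fin e.p} {a b c : ℝ} {x : E} {p q : ST}

theorem norm_ax (j : Fin e.p) : ‖ax e j‖ = 1 := by simp [ax]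

theorem xi_Q (j : Fin e.p) (x : E) : xi e j (e.Q j x) = x 0 := EP.ax_Q _ x

theorem xi_eq (j : Fin e.p) (x : E) : xi e j x = (e.Q j).symm x 0 := by
  rw [← xi_Q j ((e.Q j).symm x), LinearIsometryEquiv.apply_symm_apply]

theorem r2_eq (j : Fin e.p) (x : E) : r2 e j x = EP.dz (ax e j) x ^ 2 :=
  (EP.dz_sq (norm_ax j) x).symm

theorem norm_wv (j : Fin e.p) (x : E) : ‖wv e j x‖ = EP.dz (ax e j) x := rfl

theorem r2_eq_wv (j : Fin e.p) (x : E) : r2 e j x = ‖wv e j x‖ ^ 2 := r2_eq j x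


theorem mem_cone (j : Fin e.p) (x : E) :
    (e.Q j).symm x ∈ cone0 e.ε ↔ ‖wv e j x‖ ≤ e.ε * xi e j x := EP.mem_cone0 _ _ x

theorem abs_xi_le (j : Fin e.p) (x : E) : |xi e j x| ≤ ‖x‖ := by
  simpa [norm_ax, xi] using abs_real_inner_le_norm (ax e j) x

theorem xi_lip (j : Fin e.p) (x y : E) : xi e j x ≤ xi e j y + ‖x - y‖ := EP.ax_lip (norm_ax j) x y

theorem wv_lip (j : Fin e.p) (x y : E) : ‖wv e j x‖ ≤ ‖wv e j y‖ + ‖x - y‖ :=
  EP.dz_lip (norm_ax j) x y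

theorem norm_le_xi_wv (j : Fin e.p) (x : E) : ‖x‖ ≤ |xi e j x| + ‖wv e j x‖ := by
  have h : x = xi e j x • ax e j + wv e j x := by simp [wv]
  calc ‖x‖ = ‖xi e j x • ax e j + wv e j x‖ := by rw [← h]
    _ ≤ _ := (norm_add_le _ _).trans (by simp [norm_smul, norm_ax])

theorem contDiff_xi (j : Fin e.p) : ContDiff ℝ ∞ (xi e j) := contDiff_const.inner ℝ contDiff_id

theorem contDiff_r2 (j : Fin e.p) : ContDiff ℝ ∞ (r2 e j) :=
  (contDiff_norm_sq ℝ).sub ((contDiff_xi j).pow 2)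

theorem contDiff_wv (j : Fin e.p) : ContDiff ℝ ∞ (wv e j) :=
  contDiff_id.sub ((contDiff_xi j).smul contDiff_const)

theorem contDiff_chi (j : Fin e.p) (a b : ℝ) : ContDiff ℝ ∞ (chi e j a b) :=
  ((contDiff_st 9 4).comp (contDiff_r2 j)).mul ((contDiff_st a b).comp (contDiff_xi j))

theorem contDiff_zeta (a b : ℝ) : ContDiff ℝ ∞ (zeta e a b) :=
  contDiff_prod fun j _ => contDiff_const.sub (contDiff_chi j a b)

theorem isOpen_tube (j : Fin e.p) (a : ℝ) : IsOpen (tube e j a) :=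
  (isOpen_lt continuous_const ((contDiff_xi j).continuous.comp continuous_fst)).inter
    (isOpen_lt ((contDiff_r2 j).continuous.comp continuous_fst) continuous_const)

theorem isOpen_Off (j : Fin e.p) (a : ℝ) : IsOpen (Off e j a) :=
  (isOpen_lt ((contDiff_xi j).continuous.comp continuous_fst) continuous_const).union
    (isOpen_lt continuous_const ((contDiff_r2 j).continuous.comp continuous_fst))

theorem isOpen_allOff (a : ℝ) : IsOpen {p | ∀ j, p ∈ Off e j a} := by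
  rw [Set.ofPred_forall]
  exact isOpen_iInter_of_finite fun j => isOpen_Off j a

theorem tube_mono (h : a ≤ b) (hp : p ∈ tube e j b) : p ∈ tube e j a := ⟨h.trans_lt hp.1, hp.2⟩

theorem Off_mono (h : a ≤ b) (hp : p ∈ Off e j a) : p ∈ Off e j b :=
  hp.imp (fun h' => h'.trans_le h) id

theorem Con_mono (h : a ≤ b) (hp : p ∈ Con e b) : p ∈ Con e a := ⟨h.trans_lt hp.1, hp.2⟩

theorem R_pos (e : Ends S) : 3 ≤ e.R := by
  have := e.R_ge
  have := e.ε_pos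
  have := e.ε_le
  by_contra h
  have h0 : 0 < e.R := by
    by_contra h'
    nlinarith
  nlinarith

theorem wv_lt_two (hp : p ∈ tube e j a) : ‖wv e j p.1‖ < 2 := by
  have := hp.2
  rw [r2_eq_wv] at this
  nlinarith [norm_nonneg (wv e j p.1)]

theorem tube_cone (hp : p ∈ tube e j e.R) : (e.Q j).symm p.1 ∈ cone0 e.ε := by
  rw [mem_cone]
  have := wv_lt_two hp
  have := e.R_ge
  have := mul_lt_mul_of_pos_left hp.1 e.ε_pos
  linarith

theorem tube_disj (hij : i ≠ j) (hp : p ∈ tube e j e.R) : p ∉ tube e i e.R := fun h => by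
  refine e.disj i j hij p.1 (fun h0 => ?_) (tube_cone h) (tube_cone hp)
  have := hp.1
  have := R_pos e
  simp only [h0, xi, inner_zero_right] at *
  linarith

theorem norm_le_of_tube (hp : p ∈ tube e j a) (ha : 0 ≤ a) : ‖p.1‖ ≤ xi e j p.1 + 2 := by
  have := norm_le_xi_wv j p.1
  rw [abs_of_pos (ha.trans_lt hp.1)] at this
  linarith [wv_lt_two hp]

theorem chi_nonneg (j : Fin e.p) (a b : ℝ) (x : E) : 0 ≤ chi e j a b x :=
  mul_nonneg (st_nonneg _ _ _) (st_nonneg _ _ _)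

theorem chi_le_one (j : Fin e.p) (a b : ℝ) (x : E) : chi e j a b x ≤ 1 :=
  mul_le_one₀ (st_le_one _ _ _) (st_nonneg _ _ _) (st_le_one _ _ _)

theorem chi_tube (hp : p ∈ tube e j c) : chi e j a b p.1 = st a b (xi e j p.1) := by
  rw [chi, st_one' (by norm_num) hp.2.le, one_mul]

theorem chi_one (h : a < b) (hp : p ∈ tube e j b) : chi e j a b p.1 = 1 := by
  rw [chi_tube hp, st_one h hp.1.le]

theorem chi_zero (h : a < b) (hp : p ∈ Off e j a) : chi e j a b p.1 = 0 := by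
  rcases hp with hp | hp
  · rw [chi, st_zero h hp.le, mul_zero]
  · rw [chi, st_zero' (by norm_num) hp.le, zero_mul]

theorem chi_zero_of_le (h : a < b) (hx : xi e j x ≤ a) : chi e j a b x = 0 := by
  rw [chi, st_zero h hx, mul_zero]

theorem zeta_nonneg (a b : ℝ) (x : E) : 0 ≤ zeta e a b x :=
  Finset.prod_nonneg fun j _ => sub_nonneg.2 (chi_le_one j a b x)

theorem zeta_le_one (a b : ℝ) (x : E) : zeta e a b x ≤ 1 :=
  Finset.prod_le_one (fun j _ => sub_nonneg.2 (chi_le_one j a b x))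
    fun j _ => sub_le_self _ (chi_nonneg j a b x)

theorem zeta_zero (h : a < b) (hp : p ∈ tube e j b) : zeta e a b p.1 = 0 :=
  Finset.prod_eq_zero (Finset.mem_univ j) (by rw [chi_one h hp, sub_self])

theorem zeta_one (h : a < b) (hp : ∀ j, p ∈ Off e j a) : zeta e a b p.1 = 1 :=
  Finset.prod_eq_one fun j _ => by rw [chi_zero h (hp j), sub_zero]

theorem rho_arg_pos (a : ℝ) (x : E) : 1 ≤ 1 + zeta e a (a + 1) x * ‖x‖ ^ 2 := by
  have := zeta_nonneg (e := e) a (a + 1) x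
  nlinarith [mul_nonneg this (sq_nonneg ‖x‖)]

theorem one_le_rho (a : ℝ) (p : ST) : 1 ≤ rho e a p := Real.one_le_sqrt.2 (rho_arg_pos a p.1)

theorem rho_pos (a : ℝ) (p : ST) : 0 < rho e a p := one_pos.trans_le (one_le_rho a p)

theorem rho_sq (a : ℝ) (p : ST) : rho e a p ^ 2 = 1 + zeta e a (a + 1) p.1 * ‖p.1‖ ^ 2 :=
  Real.sq_sqrt (zero_le_one.trans (rho_arg_pos a p.1))

theorem rho_le_rho0 (a : ℝ) (p : ST) : rho e a p ≤ rho0 p :=
  Real.sqrt_le_sqrt (by nlinarith [zeta_le_one (e := e) a (a + 1) p.1, sq_nonneg ‖p.1‖])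

theorem rho_tube (hp : p ∈ tube e j (a + 1)) : rho e a p = 1 := by
  rw [rho, zeta_zero (by linarith) hp]; simp

theorem rho_off (hp : ∀ j, p ∈ Off e j a) : rho e a p = rho0 p := by
  rw [rho, zeta_one (by linarith) hp, one_mul, rho0]

theorem contDiff_rhoE (a : ℝ) :
    ContDiff ℝ ∞ fun x : E => √(1 + zeta e a (a + 1) x * ‖x‖ ^ 2) :=
  (contDiff_const.add ((contDiff_zeta a (a + 1)).mul (contDiff_norm_sq ℝ))).sqrt
    fun x => (one_pos.trans_le (rho_arg_pos a x)).ne'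

theorem contDiff_rho (a : ℝ) : ContDiff ℝ ∞ (rho e a) := (contDiff_rhoE a).comp contDiff_fst

theorem rho_le_of_tube (ha : 0 ≤ c) (hp : p ∈ tube e j c) : rho e a p ≤ |a| + 4 := by
  by_cases h : a + 1 < xi e j p.1
  · rw [rho_tube (j := j) ⟨h, hp.2⟩]
    linarith [abs_nonneg a]
  · have := norm_le_of_tube hp ha
    linarith [rho_le_rho0 (e := e) a p, rho0_le p, le_abs_self a, not_lt.1 h]

theorem con_off (ha : e.R < a) (hp : ∀ j, (e.Q j).symm p.1 ∉ cone0 e.ε) (j : Fin e.p) :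
    p ∈ Off e j a := by
  by_cases h : xi e j p.1 < a
  · exact Or.inl h
  · have h1 := hp j
    rw [mem_cone, not_le] at h1
    have := e.R_ge
    have := mul_lt_mul_of_pos_left (ha.trans_le (not_lt.1 h)) e.ε_pos
    refine Or.inr ?_
    rw [r2_eq_wv]
    nlinarith

section St
variable (hS : S.Static)
include hS

/-- a point of the surface in the cone `j` beyond `R` is a point of the polar graph -/
theorem exists_pol (hp : p ∈ S.M) (hc : (e.Q j).symm p.1 ∈ cone0 e.ε) (hR : e.R < xi e j p.1) :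
    ∃ θ, p.1 = e.Q j (cylP (xi e j p.1) (e.r j (xi e j p.1, θ)) θ) := by
  rw [xi_eq] at hR ⊢
  have h1 : e.Q j ((e.Q j).symm p.1) ∈ S.sl 0 := by
    rw [LinearIsometryEquiv.apply_symm_apply]
    exact (hS.mem p.1 p.2).1 hp
  obtain ⟨θ, h⟩ := (e.tube j _ hc hR).1 h1
  exact ⟨θ, by rw [← h, LinearIsometryEquiv.apply_symm_apply]⟩

omit hS in
theorem wv_pol (j : Fin e.p) (s r θ : ℝ) : ‖wv e j (e.Q j (cylP s r θ))‖ = |r| := by
  rw [norm_wv, ← EP.pol_bQ, ax, ← EP.bQ_apply, EP.dz_pol]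

theorem cone_tube (hp : p ∈ S.M) (hc : (e.Q j).symm p.1 ∈ cone0 e.ε) (hR : e.R < xi e j p.1) :
    p ∈ tube e j e.R ∧ 1 < ‖wv e j p.1‖ := by
  obtain ⟨θ, h⟩ := exists_pol hS hp hc hR
  have h1 := e.near j (xi e j p.1, θ) hR
  have h2 : ‖wv e j p.1‖ = e.r j (xi e j p.1, θ) := by
    conv_lhs => rw [h]
    rw [wv_pol, abs_of_pos (by linarith)]
  refine ⟨⟨hR, ?_⟩, by linarith⟩
  rw [r2_eq_wv, h2]
  nlinarith

theorem one_lt_wv (hp : p ∈ S.M) (ht : p ∈ tube e j e.R) : 1 < ‖wv e j p.1‖ :=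
  (cone_tube hS hp (tube_cone ht) ht.1).2

/-- the dichotomy -/
theorem tube_or_off (ha : e.R < a) (hp : p ∈ S.M) (j : Fin e.p) :
    p ∈ tube e j e.R ∨ p ∈ Off e j a := by
  by_cases h : xi e j p.1 < a
  · exact Or.inr (Or.inl h)
  · by_cases hc : (e.Q j).symm p.1 ∈ cone0 e.ε
    · exact Or.inl (cone_tube hS hp hc (ha.trans_le (not_lt.1 h))).1
    · rw [mem_cone, not_le] at hc
      have := e.R_ge
      have := mul_lt_mul_of_pos_left (ha.trans_le (not_lt.1 h)) e.ε_pos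
      refine Or.inr (Or.inr ?_)
      rw [r2_eq_wv]
      nlinarith

theorem tube_or_off' (ha : e.R < a) (hb : b < a) (hp : p ∈ S.M) (j : Fin e.p) :
    p ∈ tube e j b ∨ p ∈ Off e j a := by
  by_cases h : xi e j p.1 < a
  · exact Or.inr (Or.inl h)
  · exact (tube_or_off hS ha hp j).imp (fun h' => ⟨hb.trans_le (not_lt.1 h), h'.2⟩) id

theorem off_of_tube (ha : e.R < a) (hij : i ≠ j) (hp : p ∈ S.M) (ht : p ∈ tube e j e.R) :
    p ∈ Off e i a := (tube_or_off hS ha hp i).resolve_left (tube_disj hij ht)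

theorem zeta_tube (ha : e.R < a) (h : a < b) (hp : p ∈ S.M) (ht : p ∈ tube e j e.R) :
    zeta e a b p.1 = 1 - chi e j a b p.1 :=
  Finset.prod_eq_single j (fun i _ hi => by rw [chi_zero h (off_of_tube hS ha hi hp ht), sub_zero])
    (fun h => (h (Finset.mem_univ j)).elim)

theorem sum_chi_tube (ha : e.R < a) (h : a < b) (hp : p ∈ S.M) (ht : p ∈ tube e j e.R)
    {G : Type} [AddCommGroup G] [Module ℝ G] (v : Fin e.p → G) :
    ∑ i, chi e i a b p.1 • v i = chi e j a b p.1 • v j :=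
  Finset.sum_eq_single j (fun i _ hi => by rw [chi_zero h (off_of_tube hS ha hi hp ht), zero_smul])
    (fun h => (h (Finset.mem_univ j)).elim)

theorem tube_or_allOff (ha : e.R < a) (hp : p ∈ S.M) :
    (∃ j, p ∈ tube e j e.R) ∨ ∀ j, p ∈ Off e j a := by
  by_cases h : ∃ j, p ∈ tube e j e.R
  · exact Or.inl h
  · exact Or.inr fun j => (tube_or_off hS ha hp j).resolve_left fun h' => h ⟨j, h'⟩

/-- partition of unity -/
theorem zeta_add_sum (ha : e.R < a) (h : a < b) (hp : p ∈ S.M) :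
    zeta e a b p.1 + ∑ j, chi e j a b p.1 = 1 := by
  rcases tube_or_allOff hS ha hp with ⟨j, hj⟩ | ho
  · have := sum_chi_tube hS ha h hp hj fun _ => (1 : ℝ)
    simp only [smul_eq_mul, mul_one] at this
    rw [this, zeta_tube hS ha h hp hj]
    ring
  · rw [zeta_one h ho, Finset.sum_eq_zero fun j _ => chi_zero h (ho j), add_zero]

/-- the three regions -/
theorem three (hb : e.R ≤ b) (hc : 2 * b ≤ c) (hp : p ∈ S.M) :
    p ∈ Bl c ∨ p ∈ Con e c ∨ ∃ j, p ∈ tube e j b := by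
  by_cases h0 : ‖p.1‖ ≤ c
  · exact Or.inl h0
  · by_cases h1 : ∀ j, (e.Q j).symm p.1 ∉ cone0 e.ε
    · exact Or.inr (Or.inl ⟨not_le.1 h0, h1⟩)
    · obtain ⟨j, hj⟩ := not_forall.1 h1
      have hj := not_not.1 hj
      have h2 := (mem_cone j p.1).1 hj
      have h3 := norm_le_xi_wv j p.1
      have h4 : 0 ≤ xi e j p.1 := by
        by_contra h
        nlinarith [norm_nonneg (wv e j p.1), e.ε_pos]
      rw [abs_of_nonneg h4] at h3
      have h5 : b < xi e j p.1 := by nlinarith [e.ε_le, not_le.1 h0]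
      exact Or.inr (Or.inr ⟨j, h5, (cone_tube hS hp hj (hb.trans_lt h5)).1.2⟩)


end St

end Crest.Agent.N250.Wr

end
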