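import Crest.Agent.N250.Wr.Dat
import Crest.Agent.N250.A.CS0
import Crest.Agent.N250.T.Same

/-!
# Row 250 (helper67): the symbols of a shrinker with ends
-/

set_option autoImplicit false
open Set Filter Topology
open scoped ContDiff InnerProductSpace
open Crest.GeometryTopology.MCF

noncomputable section

namespace Crest.Agent.N250.Wr

variable {S : Mv} {e : Ends S} {i j : Fin e.p} {a b c a' b' : ℝ} {x : E} {p q : ST}
  {f g : ST → ℝ} {m : ℤ} {U : Set ST}

theorem inv_DL (hS : S.Static) (hf : CS.Inv f) (l : List (Fin 3)) : CS.Inv (S.DL l f) := by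
  induction l with
  | nil => exact hf
  | cons a l ih => exact CS.inv_D hS ih a

theorem njet_st (hS : S.Static) {k : ℕ} {C : ℝ} (h : S.NJet k C (p.1, 0)) : S.NJet k C p :=
  fun a l hl => by
    have := h a l hl
    rwa [inv_DL hS (CS.inv_nu hS a) l p.1 0 p.2] at this


theorem pos_rho : Pos S (rho e a) U := fun p _ _ => rho_pos a p

theorem pos_rho0 : Pos S rho0 U := fun p _ _ => rho0_pos p

theorem sm_amb {g : E → ℝ} (hg : ContDiff ℝ ∞ g) : S.Sm fun p => g p.1 :=
  Mv.sm_of_contDiff (hg.comp contDiff_fst)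

theorem sm_rho (a : ℝ) : S.Sm (rho e a) := Mv.sm_of_contDiff (contDiff_rho a)


theorem norm_sq_eq (x : E) : ‖x‖ ^ 2 = ∑ c, x c * x c := by
  rw [← real_inner_self_eq_norm_sq, inner_eq_sum]

theorem abs_co_le (x : E) (c : Fin 3) : |x c| ≤ ‖x‖ := by
  simpa using PiLp.norm_apply_le x c

section
variable (hR : S.Reg) (hS : S.Static)
include hR hS

theorem sym1_nu (e : Ends S) (U : Set ST) (c : Fin 3) : Sym S (fun _ => 1) U 0 (S.nu c) :=
  ⟨hR.sm_nu c, fun l => by
    obtain ⟨C, hC⟩ := e.jets₀ l.length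
    exact bd_of pos_one (C := C) fun p hp _ => by
      simpa using njet_st hS (hC p.1 ((hS.mem p.1 p.2).1 hp)) c l rfl⟩

theorem symc_nu (c : Fin 3) : Sym S rho0 (Con e e.R) 0 (S.nu c) :=
  ⟨hR.sm_nu c, fun l => by
    obtain ⟨C, hC⟩ := e.jets l.length
    refine bd_of pos_rho0 (C := |C| * 2 ^ l.length) fun p hp hc => ?_
    have h1 := njet_st hS (hC p.1 ((hS.mem p.1 p.2).1 hp) hc.1 hc.2) c l rfl
    have h2 : 3 < ‖p.1‖ := (R_pos e).trans_lt hc.1
    have h3 : rho0 p ≤ 2 * ‖p.1‖ := by linarith [rho0_le p]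
    have h4 := rho0_pos p
    rw [zero_sub, zpow_neg, zpow_natCast, ← div_eq_mul_inv, le_div_iff₀ (by positivity)]
    calc _ ≤ |C| / ‖p.1‖ ^ l.length * (2 * ‖p.1‖) ^ l.length :=
          mul_le_mul (h1.trans (by gcongr; exact le_abs_self C)) (by gcongr) (by positivity)
            (by positivity)
      _ = _ := by rw [mul_pow]; field_simp⟩

theorem symb_amb (e : Ends S) (c : ℝ) {g : E → ℝ} (hg : ContDiff ℝ ∞ g) :
    Sym S (fun _ => 1) (Bl c) 0 fun p => g p.1 :=
  sym_amb_bdd hR (sym1_nu hR hS e _) (fun _ _ h => h) hg 0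

theorem symc_x (c : Fin 3) : Sym S rho0 (Con e e.R) 1 fun p => p.1 c :=
  sym_x hR pos_rho0 (symc_nu hR hS) (fun c => bd_of pos_rho0 (C := 1) fun p _ _ => by
    simpa using (abs_co_le p.1 c).trans (norm_le_rho0 p)) c

theorem symc_t : Sym S rho0 (Con e e.R) 2 fun p => 1 + ‖p.1‖ ^ 2 :=
  (((sym_const hR pos_rho0 1).le (fun p _ _ => one_le_rho0 p) (by norm_num)).add' hR pos_rho0
    (Sym.sum' hR pos_rho0 (s := Finset.univ) fun c _ =>
      (symc_x hR hS c).mul' hR pos_rho0 (symc_x hR hS c) rfl)).congr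
    fun p _ => by rw [norm_sq_eq]

omit hR in
/-- the three region principle -/
theorem sym_of3 (ha : e.R < a) (h0 : ∀ c, Sym S (fun _ => 1) (Bl c) 0 f)
    (h1 : Sym S rho0 (Con e c) m f) (h2 : ∀ j, Sym S (fun _ => 1) (tube e j b) 0 f) :
    Sym S (rho e a) univ m f := by
  set b' := max b (a + 1)
  set c' := max (max c e.R) (2 * b')
  have t0 : Sym S (rho e a) (Bl c') m f :=
    (h0 c').one_cast.weight pos_one pos_rho (K := 1 + |c'|)
      (fun p _ _ => by nlinarith [one_le_rho (e := e) a p, abs_nonneg c'])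
      (fun p _ hp => by
        have : ‖p.1‖ ≤ c' := hp
        linarith [rho_le_rho0 (e := e) a p, rho0_le p, le_abs_self c'])
  have t1 : Sym S (rho e a) (Con e c') m f :=
    (h1.mono fun p _ h => Con_mono ((le_max_left _ _).trans (le_max_left _ _)) h).weight
      pos_rho0 pos_rho (K := 1) (fun p _ h => by rw [rho_off (con_off ha h.2), one_mul])
      (fun p _ h => by rw [rho_off (con_off ha h.2), one_mul])
  have t2 : ∀ j, Sym S (rho e a) (tube e j b') m f := fun j =>
    ((h2 j).mono fun p _ h => tube_mono (le_max_left _ _) h).one_cast.weight pos_one pos_rho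
      (K := 1) (fun p _ h => by rw [rho_tube (tube_mono (le_max_right _ _) h), one_mul])
      (fun p _ h => by rw [rho_tube (tube_mono (le_max_right _ _) h), one_mul])
  have t3 : ∀ s : Finset (Fin e.p), Sym S (rho e a) (Bl c' ∪ Con e c' ∪ ⋃ j ∈ s, tube e j b') m f := by
    intro s
    induction s using Finset.induction_on with
    | empty => simpa using t0.union pos_rho t1
    | insert j s _ ih =>
      refine (ih.union pos_rho (t2 j)).mono fun p _ hp => ?_
      simp only [Finset.mem_insert, iUnion_iUnion_eq_or_left, mem_union] at hp ⊢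
      tauto
  refine (t3 Finset.univ).mono fun p hp _ => ?_
  rcases three hS (b := b') (c := c') (by linarith [le_max_right b (a + 1)]) (le_max_right _ _) hp
    with h | h | ⟨j, h⟩
  · exact Or.inl (Or.inl h)
  · exact Or.inl (Or.inr h)
  · exact Or.inr (mem_biUnion (Finset.mem_coe.2 (Finset.mem_univ j)) h)

/-- functions supported in one tube -/
theorem sym_tube (ha' : e.R < a') (hb : 0 ≤ b) (hb' : b < a')
    (h : Sym S (fun _ => 1) (tube e j b) 0 f) (hz : ∀ p ∈ S.M, p ∈ Off e j a' → f p = 0) (m : ℤ) :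
    Sym S (rho e a) univ m f := by
  have t1 : Sym S (rho e a) (tube e j b) m f :=
    h.one_cast.weight pos_one pos_rho (K := |a| + 4)
      (fun p _ _ => by nlinarith [one_le_rho (e := e) a p, abs_nonneg a])
      (fun p _ hp => by linarith [rho_le_of_tube (a := a) hb hp])
  have t2 : Sym S (rho e a) (Off e j a') m f :=
    (sym_zero hR pos_rho m).congrN h.1 (.of_open (isOpen_Off j a') (fun _ _ h => h) hz)
  exact (t1.union pos_rho t2).mono fun p hp _ => tube_or_off' hS ha' hb' hp j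

omit hR hS in
theorem sym1_tube (hc : 0 ≤ c) (h0 : ∀ c, Sym S (fun _ => 1) (Bl c) 0 f)
    (h1 : Sym S (fun _ => 1) (tube e j b) 0 f) : Sym S (fun _ => 1) (tube e j c) 0 f :=
  ((h0 (b + 2)).union pos_one h1).mono fun p _ hp => by
    by_cases h : b < xi e j p.1
    · exact Or.inr ⟨h, hp.2⟩
    · exact Or.inl (show ‖p.1‖ ≤ b + 2 by linarith [norm_le_of_tube hp hc, not_lt.1 h])

/-- ambient functions that are locally constant at infinity up to a conical symbol -/
theorem sym_amb3 (ha : e.R < a) (ha' : e.R < a') {g : E → ℝ} (hg : ContDiff ℝ ∞ g)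
    (hf : Sym S rho0 (Con e e.R) m f) (h1 : ∀ p, (∀ j, p ∈ Off e j a') → g p.1 = f p)
    {k : Fin e.p → ℝ} (h2 : ∀ j p, p ∈ tube e j b → g p.1 = k j) :
    Sym S (rho e a) univ m fun p => g p.1 :=
  sym_of3 hS (b := b) ha (fun c => symb_amb hR hS e c hg)
    (hf.congrN (sm_amb hg) (.of_open (isOpen_allOff a') (fun _ _ h => con_off ha' h.2)
      fun p _ h => h1 p h))
    fun j => (sym_const hR pos_one (k j)).congrN (sm_amb hg)
      (.of_open (isOpen_tube j b) (fun _ _ h => h) fun p _ h => h2 j p h)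

variable (ha : e.R < a)
include ha

theorem sym_nu (c : Fin 3) : Sym S (rho e a) univ 0 (S.nu c) :=
  sym_of3 hS (b := 0) ha (fun _ => sym1_nu hR hS e _ c) (symc_nu hR hS c)
    fun _ => sym1_nu hR hS e _ c

theorem sym_rho (m : ℤ) : Sym S (rho e a) univ m fun p => rho e a p ^ m :=
  sym_zpow hR pos_rho (sm_rho a) (fun p _ => rho_pos a p)
    ((sym_amb3 hR hS (b := a + 1) (k := fun _ => 1) ha ha
      (g := fun x => 1 + zeta e a (a + 1) x * ‖x‖ ^ 2)
      (contDiff_const.add ((contDiff_zeta a (a + 1)).mul (contDiff_norm_sq ℝ))) (symc_t hR hS)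
      (fun p h => by rw [zeta_one (by linarith) h, one_mul])
      (fun j p h => by rw [zeta_zero (by linarith) h, zero_mul, add_zero])).congr
      fun p _ => by rw [← sq, rho_sq]) m

theorem sym_rho1 : Sym S (rho e a) univ 1 (rho e a) :=
  (sym_rho hR hS ha 1).congr fun _ _ => (zpow_one _).symm

theorem sym_iota : Sym S (rho e a) univ (-1) fun p => (rho e a p)⁻¹ :=
  (sym_rho hR hS ha (-1)).congr fun _ _ => (zpow_neg_one _).symm

theorem sym_zeta (ha' : e.R < a') (h : a' < b') :
    Sym S (rho e a) univ 0 fun p => zeta e a' b' p.1 :=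
  sym_amb3 hR hS (k := fun _ => 0) ha ha' (contDiff_zeta a' b') (sym_const hR pos_rho0 1)
    (fun _ hp => zeta_one h hp) fun _ _ hp => zeta_zero h hp

theorem sym_zeta_x (ha' : e.R < a') (h : a' < b') (c : Fin 3) :
    Sym S (rho e a) univ 1 fun p => zeta e a' b' p.1 * p.1 c :=
  sym_amb3 hR hS (k := fun _ => 0) ha ha' (g := fun x => zeta e a' b' x * x c)
    ((contDiff_zeta a' b').mul (contDiff_euclidean.1 contDiff_id c)) (symc_x hR hS c)
    (fun _ hp => by rw [zeta_one h hp, one_mul]) fun _ _ hp => by rw [zeta_zero h hp, zero_mul]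



/-- derivatives of functions that are locally constant at infinity -/
theorem sym_D_amb (ha' : e.R < a') {g : E → ℝ} (hg : ContDiff ℝ ∞ g) {k₀ : ℝ}
    (h1 : ∀ p, (∀ j, p ∈ Off e j a') → g p.1 = k₀) {k : Fin e.p → ℝ}
    (h2 : ∀ j p, p ∈ tube e j b → g p.1 = k j) (c : Fin 3) (m : ℤ) :
    Sym S (rho e a) univ m (S.D c fun p => g p.1) := by
  have z : ∀ {O U : Set ST} {k : ℝ}, IsOpen O → (∀ p ∈ S.M, p ∈ U → p ∈ O) →
      (∀ p ∈ O, g p.1 = k) → EqN S U (S.D c fun p => g p.1) fun _ => 0 := by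
    intro O U k hO hU h p hp hpU
    exact ((EqN.of_open (g := fun _ => k) hO hU fun q _ hq => h q hq).D c p hp hpU).trans
      (Mv.ev_of_eqOn fun q hq => hR.D_const hq k c)
  exact sym_of3 hS (b := b) (c := e.R) ha
    (fun r => ((symb_amb hR hS e r hg).D hR c).one_cast)
    ((sym_zero hR pos_rho0 m).congrN (hR.sm_D (sm_amb hg) c)
      (z (isOpen_allOff a') (fun _ _ h => con_off ha' h.2) h1))
    fun j => (sym_zero hR pos_one 0).congrN (hR.sm_D (sm_amb hg) c)
      (z (isOpen_tube j b) (fun _ _ h => h) (h2 j))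

theorem sym_D_zeta (ha' : e.R < a') (h : a' < b') (c : Fin 3) (m : ℤ) :
    Sym S (rho e a) univ m (S.D c fun p => zeta e a' b' p.1) :=
  sym_D_amb hR hS ha (k := fun _ => 0) ha' (contDiff_zeta a' b') (fun _ hp => zeta_one h hp)
    (fun _ _ hp => zeta_zero h hp) c m

omit ha in
theorem sym1_chi (h : a' < b') (hc : 0 ≤ c) :
    Sym S (fun _ => 1) (tube e j c) 0 fun p => chi e j a' b' p.1 :=
  sym1_tube (b := b') hc (fun c => symb_amb hR hS e c (contDiff_chi j a' b'))
    ((sym_const hR pos_one 1).congrN (sm_amb (contDiff_chi j a' b'))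
      (.of_open (isOpen_tube j b') (fun _ _ h => h) fun _ _ hp => chi_one h hp))


omit ha in
/-- `chi * f` for `f` with bounded jets on the tube -/
theorem sym_chi_mul (ha' : e.R < a') (h : a' < b') (hb : 0 ≤ b) (hb' : b < a')
    (hf : Sym S (fun _ => 1) (tube e j b) 0 f) (m : ℤ) :
    Sym S (rho e a) univ m fun p => chi e j a' b' p.1 * f p :=
  sym_tube hR hS ha' hb hb' ((sym1_chi hR hS h hb).mul' hR pos_one hf rfl)
    (fun _ _ hp => by rw [chi_zero h hp, zero_mul]) m

omit ha in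
theorem sym1_D_lin (e : Ends S) (v : E) (c : Fin 3) :
    Sym S (fun _ => 1) U 0 (S.D c fun p => ⟪v, p.1⟫_ℝ) :=
  (Sym.sum' hR pos_one (s := Finset.univ) fun d _ =>
    (sym_P hR pos_one (sym1_nu hR hS e U) c d).const_mul hR pos_one (v d)).congr fun p hp => by
    have : (fun p : ST => ⟪v, p.1⟫_ℝ) = ∑ d, fun p => v d * S.pre.x d p := by
      funext q
      rw [inner_eq_sum, Finset.sum_apply]
      rfl
    rw [this, hR.D_sum hp _ (f := fun d p => v d * S.pre.x d p)
      fun d => (Mv.sm_const (v d)).mul (Mv.sm_x d)]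
    exact Finset.sum_congr rfl fun d _ => hR.D_const_mul hp (v d) (Mv.sm_x d) c

omit ha in
theorem sym1_wv (j : Fin e.p) (c : ℝ) (d : Fin 3) :
    Sym S (fun _ => 1) (tube e j c) 0 fun p => wv e j p.1 d := by
  have he : (fun p : ST => wv e j p.1 d) = S.pre.x d - fun p => ax e j d * ⟪ax e j, p.1⟫_ℝ := by
    funext q
    simp [wv, xi, Mv.pre, mul_comm]
  have hl : S.Sm fun p => ⟪ax e j, p.1⟫_ℝ := sm_amb (contDiff_xi j)
  refine sym_of_D (sm_amb (contDiff_euclidean.1 (contDiff_wv j) d))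
    (bd_of pos_one (C := 2) fun p _ hp => by
      simpa using (abs_co_le _ d).trans (wv_lt_two hp).le) fun k => ?_
  refine (((sym_P hR pos_one (sym1_nu hR hS e _) k d).sub' hR pos_one
    ((sym1_D_lin hR hS e (ax e j) k).const_mul hR pos_one (ax e j d))).congr
    fun p hp => ?_).one_cast
  rw [he, hR.D_sub hp (g := fun p => ax e j d * ⟪ax e j, p.1⟫_ℝ) (Mv.sm_x d)
    ((Mv.sm_const _).mul hl), hR.D_const_mul hp _ hl]
  rfl


end

/-- `⟨x, n⟩ = 2 H` is a symbol of order `-1` -/
theorem sym_xn (hS : S.IsShr) (ha : e.R < a) : Sym S (rho e a) univ (-1) (S.xn 0) :=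
  ((sym_H hS.reg pos_rho (sym_nu hS.reg hS.st ha)).const_mul hS.reg pos_rho 2).congr fun p hp => by
    have := hS.eq p hp
    rw [Mv.shr] at this
    linarith

end Crest.Agent.N250.Wr

end
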